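import Vale.Agent.P097Q.Defs

/-!
# P097Q: the seam between charts / passages and the separation lemma

Step units.  Charts `C i`, `i ≤ m`, with inverses `D i`; `Z i` is the true state in the coordinates
of chart `i`; `S c` / `S' c` are the forward / backward passages between the charts `c`, `c + 1`.
-/

set_option linter.all false

noncomputable section

namespace Vale.Agent.P097Q

open Set Metric Real

/-- the constants of the macroscopic box -/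
structure Mac where
  w : ℝ
  H : ℝ
  δ : ℝ
  K : ℝ
  B₀ : ℝ
  ls : ℝ
  e : ℝ
  FL : ℝ
  FR : ℝ

structure Mac.OK (M : Mac) (P : Par) : Prop where
  wσ : 4 * P.σ + 4 ≤ M.w
  hH : P.h + P.F * (P.v + 1) ≤ M.H
  ls0 : 0 ≤ M.ls
  lsl : M.ls ≤ P.l₀
  K1 : 1 ≤ M.K
  B1 : 1 ≤ M.B₀
  tube : M.B₀ * exp (-(P.c * M.ls)) < M.δ
  KB : M.K * M.δ ≤ P.B
  eδ : M.e < M.δ
  tiny : 6 * M.K * M.e ≤ exp (-(P.c * M.w * sinh (π * (M.H + P.F * (P.v + 1)) / (2 * M.w))))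
  dG : P.d ≤ P.G
  FL : P.G ≤ M.FL ∧ M.FL + P.d ≤ P.F
  FR : M.FR ≤ -P.G ∧ -P.F ≤ M.FR - P.d

/-- the box of the charts -/
def MB (M : Mac) (P : Par) : Set (ℂ × ℂ) :=
  {p | |p.1.re| ≤ M.w + 1 ∧ p.1.im ≤ P.F * (P.v + 2) ∧ -p.1.im ≤ M.H + 1 ∧ |p.2.re| ≤ P.ρ + 2 ∧
    |p.2.im| ≤ P.v + 2}

/-- a chart with a quantitative inverse -/
def Cht (M : Mac) (P : Par) (C D : ℂ × ℂ → ℂ × ℂ) : Prop := ∀ p ∈ MB M P,
  DifferentiableAt ℂ C p ∧ ∀ q ∈ ball (C p) M.δ,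
    DifferentiableAt ℂ D q ∧ C (D q) = q ∧ ‖D q - p‖ ≤ M.K * ‖q - C p‖

/-- a passage from the chart `C` to the chart `C'` below the level of slope `f` -/
def Pas (M : Mac) (P : Par) (f : ℝ) (C C' S : ℂ × ℂ → ℂ × ℂ) : Prop := ∀ p ∈ MB M P,
  P.l₀ ≤ tt f p → DifferentiableAt ℂ S (C p) ∧ ‖S (C p) - C' p‖ < M.δ

/-- the true state exists below the level of slope `f` and obeys a crude bound -/
def Tru (M : Mac) (P : Par) (f lo hi : ℝ) (Z C : ℂ × ℂ → ℂ × ℂ) : Prop := ∀ p : ℂ × ℂ,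
  |p.1.re| ≤ M.w → |p.2.re| < P.ρ + 1 → lo < p.2.im → p.2.im < hi → P.l₀ - M.ls ≤ tt f p →
  -p.1.im ≤ M.H → DifferentiableAt ℂ Z p ∧ ‖Z p - C p‖ ≤ M.B₀

/-- the deep band -/
def Bot (M : Mac) (P : Par) : Set (ℂ × ℂ) :=
  {p | |p.1.re| ≤ M.w ∧ |p.2.re| < P.ρ + 1 ∧ |p.2.im| < P.v + 1 ∧ M.H - 1 ≤ -p.1.im ∧
    -p.1.im ≤ M.H}

/-- what the block of charts and passages delivers.  A passage without obstacle may be given the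
slopes `fl c = FL`, `fr c = FR`; an obstacle has `fl c = fr c`. -/
structure Seam (M : Mac) (P : Par) (m : ℕ) (fl fr : ℕ → ℝ) (C D Z S S' : ℕ → ℂ × ℂ → ℂ × ℂ) :
    Prop where
  card : m + 2 ≤ P.n
  cht : ∀ i ≤ m, Cht M P (C i) (D i)
  pas : ∀ c < m, Pas M P (fl c) (C c) (C (c + 1)) (S c)
  pas' : ∀ c < m, Pas M P (fr c) (C (c + 1)) (C c) (S' c)
  truL : Tru M P M.FL (-(2 * P.a)) (P.v + 1) (Z 0) (C 0)
  truR : Tru M P M.FR (-(P.v + 1)) (2 * P.a) (Z m) (C m)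
  tru : ∀ i ≤ m, Tru M P 0 (-(2 * P.a)) (2 * P.a) (Z i) (C i)
  deep : ∀ i ≤ m, ∀ p ∈ Bot M P, ‖Z i p - C i p‖ ≤ M.e
  orb : ∀ c < m, ∀ p ∈ Bot M P, S c (Z c p) = Z (c + 1) p ∧ S' c (Z (c + 1) p) = Z c p
  fF : ∀ c < m, |fl c| + P.d ≤ P.F ∧ |fr c| + P.d ≤ P.F
  sepE : ∀ c < m, ∀ x, x = fl c ∨ x = fr c → |x| < P.G → P.d ≤ |x - M.FL| ∧ P.d ≤ |x - M.FR|
  sepO : ∀ c < m, ∀ c' < m, c ≠ c' → ∀ x y, x = fl c ∨ x = fr c → y = fl c' ∨ y = fr c' →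
    |x| < P.G → P.d ≤ |x - y|

/-- **true = clean** in every chart `k` with no low slope on its left and no high slope on its
right: the true state is the clean state at parameters moved by `exp (-Λ)` -/
def Spec_SEAM : Prop := ∀ (M : Mac) (P : Par) (m : ℕ) (fl fr : ℕ → ℝ)
  (C D Z S S' : ℕ → ℂ × ℂ → ℂ × ℂ), P.OK → M.OK P → Seam M P m fl fr C D Z S S' →
  ∀ k ≤ m, (∀ c < k, -P.G < fl c) → (∀ c < m, k ≤ c → fr c < P.G) → ∀ p : ℂ × ℂ,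
    |p.1.re| ≤ P.σ → |p.2.re| ≤ P.ρ → |p.2.im| ≤ P.a → P.l₀ + P.lam + 1 ≤ -p.1.im →
    -p.1.im ≤ M.H → C k (D k (Z k p)) = Z k p ∧ ‖D k (Z k p) - p‖ * wt P p ≤ 1000 * P.n * P.B

/-- 1811: three lines near an edge -/
def S_EDGE : Prop := ∀ (U : ℂ → ℂ × ℂ) (w y H' H B c : ℝ), 0 < w → 0 < H' → H' ≤ H → 0 ≤ c →
  0 ≤ B → (∀ z : ℂ, |z.re| ≤ w → z.im ∈ Icc (y - H') y → DifferentiableAt ℂ U z ∧ ‖U z‖ ≤ B) →
  (∀ z : ℂ, |z.re| ≤ w → z.im = y - H' → ‖U z‖ ≤ B * exp (-(c * w * sinh (π * H / (2 * w))))) →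
  ∀ z : ℂ, |z.re| ≤ w / 2 → z.im ∈ Icc (y - H') y → ‖U z‖ ≤ B * exp (-(c * (y - z.im)))

end Vale.Agent.P097Q
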