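import Vale.Agent.P097Q.SDefs

/-!
# P097Q: three lines near an edge
-/

set_option linter.all false

noncomputable section

namespace Vale.Agent.P097Q

open Set Metric Real

namespace Edge

def ps (c w y : ℝ) (z : ℂ) : ℂ :=
  (c * w : ℝ) * (Complex.I * Complex.sin ((π / (2 * w) : ℝ) * (z - y * Complex.I)))

theorem ps_re (c w y : ℝ) (z : ℂ) : (ps c w y z).re =
    c * w * (cos (π / (2 * w) * z.re) * sinh (π / (2 * w) * (y - z.im))) := by
  have e : ((π / (2 * w) : ℝ) : ℂ) * (z - y * Complex.I) =
      (π / (2 * w) * z.re : ℝ) + (-(π / (2 * w) * (y - z.im)) : ℝ) * Complex.I := by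
    apply Complex.ext
    · simp only [Complex.mul_re, Complex.add_re, Complex.sub_re, Complex.ofReal_re,
        Complex.ofReal_im, Complex.I_re, Complex.I_im, Complex.sub_im, Complex.mul_im]
      ring
    · simp only [Complex.mul_re, Complex.add_im, Complex.sub_re, Complex.ofReal_re,
        Complex.ofReal_im, Complex.I_re, Complex.I_im, Complex.sub_im, Complex.mul_im]
      ring
  rw [ps, e, Complex.sin_add_mul_I, ← Complex.ofReal_sin, ← Complex.ofReal_cos,
    ← Complex.ofReal_cosh, ← Complex.ofReal_sinh, Real.sinh_neg]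
  simp only [Complex.mul_re, Complex.add_re, Complex.add_im, Complex.ofReal_re,
    Complex.ofReal_im, Complex.I_re, Complex.I_im, Complex.mul_im]
  ring

theorem nrm (a : ℂ) (u : ℂ × ℂ) : ‖Complex.exp a • u‖ = exp a.re * ‖u‖ := by
  rw [norm_smul, Complex.norm_exp]

end Edge

theorem edge (R : S_RECT) : S_EDGE := by
  intro U w y H' H B c hw hH' hH hc hB hU hbot z hz hzi
  have hk : 0 < π / (2 * w) := by positivity
  have key := R (fun z => Complex.exp (Edge.ps c w y z) • U z) (-w) w (y - H') y B
    (by linarith) (by linarith)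
    (fun z h1 h2 => by
      have h3 : DifferentiableAt ℂ (fun z => Complex.exp (Edge.ps c w y z)) z := by
        unfold Edge.ps
        fun_prop
      exact h3.smul (hU z (abs_le.2 h1) h2).1)
    (fun z h1 h2 h3 => by
      have h4 := (hU z (abs_le.2 h1) h2).2
      rw [Edge.nrm, Edge.ps_re]
      rcases h3 with h3 | h3 | h3 | h3
      · rw [h3, show π / (2 * w) * -w = -(π / 2) by field_simp, Real.cos_neg, Real.cos_pi_div_two]
        simpa using h4
      · rw [h3, show π / (2 * w) * w = π / 2 by field_simp, Real.cos_pi_div_two]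
        simpa using h4
      · have h5 := hbot z (abs_le.2 h1) h3
        have h6 : sinh (π / (2 * w) * (y - z.im)) ≤ sinh (π * H / (2 * w)) := by
          rw [h3, Real.sinh_le_sinh, mul_div_right_comm]
          exact mul_le_mul_of_nonneg_left (by linarith) hk.le
        have h7 : 0 ≤ sinh (π / (2 * w) * (y - z.im)) :=
          Real.sinh_nonneg_iff.2 (mul_nonneg hk.le (by linarith [h2.2]))
        have h8 : cos (π / (2 * w) * z.re) * sinh (π / (2 * w) * (y - z.im)) ≤
            sinh (π * H / (2 * w)) :=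
          (mul_le_of_le_one_left h7 (Real.cos_le_one _)).trans h6
        have h9 := Real.exp_le_exp.2 (mul_le_mul_of_nonneg_left h8 (mul_nonneg hc hw.le))
        refine (mul_le_mul h9 h5 (norm_nonneg _) (exp_pos _).le).trans (le_of_eq ?_)
        rw [mul_left_comm, ← Real.exp_add, add_neg_cancel, Real.exp_zero, mul_one]
      · rw [h3, sub_self, mul_zero, Real.sinh_zero]
        simpa using h4)
    z (abs_le.1 (hz.trans (by linarith))) hzi
  simp only [Edge.nrm, Edge.ps_re] at key
  have ht : 0 ≤ y - z.im := by linarith [hzi.2]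
  have h1 : π / (2 * w) * (y - z.im) ≤ sinh (π / (2 * w) * (y - z.im)) :=
    Real.self_le_sinh_iff.2 (mul_nonneg hk.le ht)
  have h2 : |π / (2 * w) * z.re| ≤ π / 4 := by
    rw [abs_mul, abs_of_pos hk]
    refine (mul_le_mul_of_nonneg_left hz hk.le).trans (le_of_eq ?_)
    field_simp
    norm_num
  have p1 := Real.pi_gt_d2
  have p2 := Real.pi_lt_d2
  have h3 : 2 / 3 ≤ cos (π / (2 * w) * z.re) := by
    have h4 := Real.one_sub_sq_div_two_le_cos (x := π / (2 * w) * z.re)
    have h5 : (π / (2 * w) * z.re) ^ 2 ≤ (π / 4) ^ 2 := sq_le_sq' (abs_le.1 h2).1 (abs_le.1 h2).2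
    nlinarith
  have h4 : 2 / 3 * (π / (2 * w) * (y - z.im)) ≤
      cos (π / (2 * w) * z.re) * sinh (π / (2 * w) * (y - z.im)) :=
    mul_le_mul h3 h1 (mul_nonneg hk.le ht) (by linarith)
  have h5 : c * (y - z.im) ≤
      c * w * (cos (π / (2 * w) * z.re) * sinh (π / (2 * w) * (y - z.im))) := by
    refine le_trans ?_ (mul_le_mul_of_nonneg_left h4 (mul_nonneg hc hw.le))
    have e : c * w * (2 / 3 * (π / (2 * w) * (y - z.im))) = c * (y - z.im) * (π / 3) := by
      field_simp
    rw [e]
    exact le_mul_of_one_le_right (mul_nonneg hc ht) (by linarith)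
  have h6 := (mul_le_mul_of_nonneg_right (Real.exp_le_exp.2 h5) (norm_nonneg (U z))).trans key
  rw [Real.exp_neg, ← div_eq_mul_inv, le_div_iff₀ (exp_pos _), mul_comm]
  exact h6

end Vale.Agent.P097Q
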