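import Vale.Agent.P097Q.Seam1

/-!
# P097Q: the seam
-/

set_option linter.all false

noncomputable section

namespace Vale.Agent.P097Q

open Set Metric Real

variable {P : Par} {M : Mac} {m : ℕ} {fl fr : ℕ → ℝ} {C D Z S S' : ℕ → ℂ × ℂ → ℂ × ℂ}

theorem Ch.cut {k k' : ℕ} {f f' : ℕ → ℝ} {A A' : ℕ → ℂ × ℂ → ℂ × ℂ} (H : P.OK)
    (C : Ch P k k' f f' A A') (dG : P.d ≤ P.G) : ∃ g, Cut P k k' f f' g := by
  have d0 := H.d0
  have e1 : ∀ x : ℝ, |x - (x - P.d / 2)| = P.d / 2 := fun x => by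
    rw [sub_sub_cancel, abs_of_pos (by linarith)]
  by_cases h : ∃ c < k, f c < P.G
  · obtain ⟨c, hc, cc⟩ := h
    refine ⟨_, cut_of H (C.fF c hc).1 (C.fF c hc).2 cc (fun j hj => ?_)
      (fun j hj => Or.inr (C.sepx c hc j hj (Or.inl cc))) (e1 _)⟩
    by_cases e : c = j
    · exact Or.inl (e ▸ rfl)
    · exact Or.inr (C.sep c hc j hj e cc)
  by_cases h' : ∃ c < k', -P.G < f' c
  · obtain ⟨c, hc, cc⟩ := h'
    refine ⟨_, cut_of H (C.fF' c hc).1 cc (C.fF' c hc).2 (fun j hj => Or.inr ?_)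
      (fun j hj => ?_) (e1 _)⟩
    · rw [abs_sub_comm]; exact C.sepx j hj c hc (Or.inr cc)
    by_cases e : c = j
    · exact Or.inl (e ▸ rfl)
    · exact Or.inr (C.sep' c hc j hj e cc)
  push Not at h h'
  refine ⟨0, by simp; linarith [H.F1], fun j hj => ⟨?_, fun _ => by linarith [h j hj]⟩,
    fun j hj => ⟨?_, fun _ => by linarith [h' j hj]⟩⟩
  · rw [sub_zero]; linarith [le_abs_self (f j), h j hj]
  · rw [sub_zero]; linarith [neg_le_abs (f' j), h' j hj]

def LA (C D Z S : ℕ → ℂ × ℂ → ℂ × ℂ) : ℕ → ℂ × ℂ → ℂ × ℂ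
  | 0 => fun p => D 0 (Z 0 p) - p
  | j + 1 => fun p => D (j + 1) (S j (C j p)) - p

def RA (m : ℕ) (C D Z S' : ℕ → ℂ × ℂ → ℂ × ℂ) : ℕ → ℂ × ℂ → ℂ × ℂ
  | 0 => fun p => D m (Z m p) - p
  | j + 1 => fun p => D (m - 1 - j) (S' (m - 1 - j) (C (m - 1 - j + 1) p)) - p

def Lf (x : ℝ) (f : ℕ → ℝ) : ℕ → ℝ
  | 0 => x
  | j + 1 => f j

theorem comp_LA (hE : S_EDGE) (H : P.OK) (N : M.OK P) (X : Seam M P m fl fr C D Z S S')
    {p : ℂ × ℂ} (h : p ∈ Lk M P) : ∀ j ≤ m, comp (LA C D Z S) (j + 1) p = D j (Z j p)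
  | 0, _ => by simp [comp, LA]
  | j + 1, hj => by
    rw [comp, comp_LA hE H N X h j (by omega), LA, add_sub_cancel,
      link hE H N (by linarith [(X.fF j hj).1, H.d0]) (X.cht j (by omega)) (X.pas j hj)
        (X.tru j (by omega)) (X.tru _ hj) (X.deep j (by omega)) (fun p hp => (X.orb j hj p hp).1) h]

theorem comp_RA (hE : S_EDGE) (H : P.OK) (N : M.OK P) (X : Seam M P m fl fr C D Z S S')
    {p : ℂ × ℂ} (h : p ∈ Lk M P) : ∀ j ≤ m, comp (RA m C D Z S') (j + 1) p = D (m - j) (Z (m - j) p)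
  | 0, _ => by simp [comp, RA]
  | j + 1, hj => by
    have e1 : m - j = m - 1 - j + 1 := by omega
    have e2 : m - (j + 1) = m - 1 - j := by omega
    have lt : m - 1 - j < m := by omega
    rw [comp, comp_RA hE H N X h j (by omega), RA, add_sub_cancel, e1, e2,
      link hE H N (by linarith [(X.fF _ lt).2, H.d0]) (X.cht _ lt) (X.pas' _ lt)
        (X.tru _ lt) (X.tru _ lt.le) (X.deep _ lt) (fun p hp => (X.orb _ lt p hp).2) h]

theorem Thin.lk (H : P.OK) (N : M.OK P) {g : ℝ} (hg : |g| ≤ P.F) {p : ℂ × ℂ} (h : p ∈ Thin P g) :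
    p ∈ Lk M P := by
  obtain ⟨h1, h2, h3, h4, h5⟩ := h
  have := fv hg h3
  simp only [tt] at h4 h5
  exact ⟨by linarith, h2, h3, by linarith [H.Fa], by nlinarith [H.Fa, N.hH, H.Fv, H.F1]⟩

theorem Seam.ch (hE : S_EDGE) (H : P.OK) (N : M.OK P) (X : Seam M P m fl fr C D Z S S') {k : ℕ}
    (hk : k ≤ m) (al : ∀ c < k, -P.G < fl c) (ar : ∀ c < m, k ≤ c → fr c < P.G) :
    Ch P (k + 1) (m - k + 1) (Lf M.FL fl) (Lf M.FR fun j => fr (m - 1 - j)) (LA C D Z S)
      (RA m C D Z S') := by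
  have d0 := H.d0
  have dG := N.dG
  have FL := N.FL
  have FR := N.FR
  have aL : |M.FL| = M.FL := abs_of_pos (by linarith)
  have aR : |M.FR| = -M.FR := abs_of_neg (by linarith)
  have a8 := H.a8
  have a0 := H.a0
  have v1 := H.v1
  have lt : ∀ j, j + 1 < m - k + 1 → m - 1 - j < m ∧ k ≤ m - 1 - j := fun j h => by omega
  refine ⟨by have := X.card; omega, ?_, ?_, ?_, ?_, ?_, ?_, ?_, fun g hg p hp => ?_⟩
  · rintro (_ | j) hj
    · simp only [Lf]; constructor <;> linarith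
    · exact ⟨(X.fF j (by omega)).1, al j (by omega)⟩
  · rintro (_ | j) hj
    · simp only [Lf]; constructor <;> linarith
    · exact ⟨(X.fF _ (lt j hj).1).2, ar _ (lt j hj).1 (lt j hj).2⟩
  · rintro (_ | j) hj
    · rw [if_neg (show ¬ Lf M.FL fl 0 < P.G from not_lt.2 FL.1)]
      exact phi_kick hE H N (f := M.FL) (by linarith) (by linarith) le_rfl (X.cht 0 (by omega)) X.truL
        (X.deep 0 (by omega))
    · have jm : j < m := by omega
      exact psi_kick hE H N (f := fl j) (by linarith [(X.fF j jm).1]) (by split_ifs <;> linarith) le_rfl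
        (X.cht j jm.le) (X.cht _ jm) (X.pas j jm) (X.deep j jm.le) (X.deep _ jm)
        fun p hp => (X.orb j jm p hp).1
  · rintro (_ | j) hj
    · rw [if_neg (show ¬ -P.G < Lf M.FR (fun j => fr (m - 1 - j)) 0 from not_lt.2 FR.1)]
      exact phi_kick hE H N (f := M.FR) (by linarith) le_rfl (by linarith) (X.cht m le_rfl) X.truR
        (X.deep m le_rfl)
    · have jm := (lt j hj).1
      exact psi_kick hE H N (f := fr (m - 1 - j)) (by linarith [(X.fF _ jm).2]) le_rfl (by split_ifs <;> linarith)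
        (X.cht _ jm) (X.cht _ jm.le) (X.pas' _ jm) (X.deep _ jm) (X.deep _ jm.le)
        fun p hp => (X.orb _ jm p hp).2
  · rintro (_ | i) hi (_ | j) hj ne c
    · exact absurd rfl ne
    · exact absurd c (not_lt.2 FL.1)
    · exact (X.sepE i (by omega) _ (Or.inl rfl) (abs_lt.2 ⟨al i (by omega), c⟩)).1
    · exact X.sepO i (by omega) j (by omega) (by omega) _ _ (Or.inl rfl) (Or.inl rfl)
        (abs_lt.2 ⟨al i (by omega), c⟩)
  · rintro (_ | i) hi (_ | j) hj ne c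
    · exact absurd rfl ne
    · exact absurd c (not_lt.2 FR.1)
    · exact (X.sepE _ (lt i hi).1 _ (Or.inr rfl) (abs_lt.2 ⟨c, ar _ (lt i hi).1 (lt i hi).2⟩)).2
    · exact X.sepO _ (lt i hi).1 _ (lt j hj).1 (by omega) _ _ (Or.inr rfl) (Or.inr rfl)
        (abs_lt.2 ⟨c, ar _ (lt i hi).1 (lt i hi).2⟩)
  · rintro (_ | i) hi (_ | j) hj c
    · exact absurd c (not_or.2 ⟨not_lt.2 FL.1, not_lt.2 FR.1⟩)
    · have c := c.resolve_left (not_lt.2 FL.1)
      rw [abs_sub_comm]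
      exact (X.sepE _ (lt j hj).1 _ (Or.inr rfl) (abs_lt.2 ⟨c, ar _ (lt j hj).1 (lt j hj).2⟩)).1
    · have c := c.resolve_right (not_lt.2 FR.1)
      exact (X.sepE i (by omega) _ (Or.inl rfl) (abs_lt.2 ⟨al i (by omega), c⟩)).2
    · have ne : i ≠ m - 1 - j := by have := lt j hj; omega
      rcases c with c | c
      · exact X.sepO i (by omega) _ (lt j hj).1 ne _ _ (Or.inl rfl) (Or.inr rfl)
          (abs_lt.2 ⟨al i (by omega), c⟩)
      · rw [abs_sub_comm]
        exact X.sepO _ (lt j hj).1 i (by omega) ne.symm _ _ (Or.inr rfl) (Or.inl rfl)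
          (abs_lt.2 ⟨c, ar _ (lt j hj).1 (lt j hj).2⟩)
  · have l := Thin.lk H N hg hp
    rw [comp_LA hE H N X l k hk, comp_RA hE H N X l (m - k) (by omega),
      show m - (m - k) = k by omega, sub_self, norm_zero, zero_mul]
    have := H.c0
    have := H.B0
    positivity

theorem seam (hE : S_EDGE) (hQ : Spec_Q) : Spec_SEAM := by
  intro M P m fl fr C D Z S S' H N X k hk al ar p x u v lo hi
  have ch := X.ch hE H N hk al ar
  obtain ⟨g, cg⟩ := ch.cut H N.dG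
  have σ0 := H.σ0
  have B0 := H.B0
  have b := fv cg.gF v
  have Fa := H.Fa
  obtain ⟨-, k2, k3⟩ := phi0 hE H N (X.cht k hk) (X.tru k hk) (X.deep k hk) (p := p) (by linarith)
    u v (by linarith [H.lam2]) hi
  refine ⟨k2, ?_⟩
  by_cases t : tt g p ≤ P.h - 2 * P.F * P.v - 2
  · have th : p ∈ Thin P g := ⟨by linarith, u, v, by simp only [tt]; linarith, t⟩
    have := (hQ P _ _ _ _ _ _ H ch).2.2 g cg p th x
    rwa [comp_LA hE H N X (Thin.lk H N cg.gF th) k hk] at this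
  · have n1 : (1 : ℝ) ≤ P.n := by exact_mod_cast H.n1
    have h1 : ‖D k (Z k p) - p‖ * wt P p ≤ P.B * exp (-(P.c * (-p.1.im - P.l₀))) * exp P.Λ :=
      mul_le_mul k3 (wt_le H p) (wt_pos P p).le (by positivity)
    rw [mul_assoc, ← exp_add] at h1
    have e : exp (-(P.c * (-p.1.im - P.l₀)) + P.Λ) ≤ 1 := by
      rw [exp_le_one_iff]
      simp only [tt, not_le] at t
      have : P.c * (P.h - 2 * P.F * P.v - 3) ≤ P.c * (-p.1.im) :=
        mul_le_mul_of_nonneg_left (by linarith) H.c0.le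
      linarith [H.deep]
    have := mul_le_of_le_one_right B0.le e
    nlinarith

end Vale.Agent.P097Q
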