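import Vale.Agent.P097Q.All
import Vale.Agent.P097Q.Seam
import Vale.Agent.P097Q.Edge

/-!
# P097Q: the seam, closed
-/

namespace Vale.Agent.P097Q

theorem spec_EDGE : S_EDGE := edge rect

/-- **true = clean** -/
theorem spec_SEAM : Spec_SEAM := seam spec_EDGE spec_Q

end Vale.Agent.P097Q
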