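import Mathlib

/-!
# P097Q: separation of kicks with different slopes (definitions and statements)

Points are `p = (z, ζ)` in step units; `tt f p` is the depth below the level of slope `f`.
-/

set_option linter.all false

noncomputable section

namespace Vale.Agent.P097Q

open Set Metric Real

/-- the constants -/
structure Par where
  σ : ℝ
  ρ : ℝ
  v : ℝ
  a : ℝ
  l₀ : ℝ
  lam : ℝ
  h : ℝ
  B : ℝ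
  c : ℝ
  d : ℝ
  F : ℝ
  G : ℝ
  Λ : ℝ
  n : ℕ

/-- the inequalities between the constants -/
structure Par.OK (P : Par) : Prop where
  a0 : 0 < P.a
  F1 : 1 ≤ P.F
  aF : 8 * P.F * P.a ≤ 1
  B1 : 1 ≤ P.B
  c0 : 0 < P.c
  d0 : 0 < P.d
  cd : P.c * P.d * P.a ≤ 2
  v1 : 1 ≤ P.v
  Λ0 : 0 ≤ P.Λ
  ρ1 : 1 ≤ P.ρ
  Λρ : 5 * P.Λ ≤ P.ρ
  ρσ : 2 * P.F * P.ρ ≤ P.σ
  top : 8 * P.Λ ≤ P.c * P.d * P.v
  side : 10 * P.Λ * P.v ≤ P.c * P.d * P.ρ ^ 2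
  lam2 : 2 ≤ P.lam
  lamΛ : 8 * P.F * P.a * P.Λ ≤ P.lam - 1
  lamσ : P.Λ * (P.lam + 1) ^ 2 ≤ P.σ ^ 2
  deep : P.Λ + P.c * (2 * P.F * P.v + 3) ≤ P.c * (P.h - P.l₀)
  hl : P.l₀ + P.lam + 2 * P.F * P.v + 5 ≤ P.h
  n1 : 1 ≤ P.n
  sm1 : 8 * P.n * (P.B * exp (-(P.c * (P.lam - 1)))) ≤ P.a
  sm2 : 10 ^ 5 * P.n ^ 2 * (P.B * exp (-(P.c * (P.lam - 1)))) ≤ P.c * P.d * P.a ^ 2

/-- depth below the level of slope `f` -/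
def tt (f : ℝ) (p : ℂ × ℂ) : ℝ := f * p.2.im - p.1.im

/-- the domain of a kick of slope `f`, for `lo < im ζ < hi` -/
def Dom (P : Par) (f lo hi : ℝ) : Set (ℂ × ℂ) :=
  {p | |p.1.re| < 2 * P.σ + 1 ∧ |p.2.re| < P.ρ + 1 ∧ lo < p.2.im ∧ p.2.im < hi ∧
    P.l₀ < tt f p ∧ tt f p < P.h}

/-- a kick: holomorphic, exponentially small in the depth -/
structure Kick (P : Par) (f lo hi : ℝ) (A : ℂ × ℂ → ℂ × ℂ) : Prop where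
  an : DifferentiableOn ℂ A (Dom P f lo hi)
  bd : ∀ p ∈ Dom P f lo hi, ‖A p‖ ≤ P.B * exp (-(P.c * (tt f p - P.l₀)))

/-- the composition of the maps `id + A j`, `j < k`, the first one applied first -/
def comp (A : ℕ → ℂ × ℂ → ℂ × ℂ) : ℕ → ℂ × ℂ → ℂ × ℂ
  | 0, p => p
  | j + 1, p => comp A j p + A j (comp A j p)

/-- the thin region below the level of slope `f` -/
def Thin (P : Par) (f : ℝ) : Set (ℂ × ℂ) :=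
  {p | |p.1.re| ≤ 2 * P.σ ∧ |p.2.re| ≤ P.ρ ∧ |p.2.im| ≤ P.a ∧ P.l₀ + P.lam ≤ tt f p ∧
    tt f p ≤ P.h - 2 * P.F * P.v - 2}

/-- the weight -/
def wt (P : Par) (p : ℂ × ℂ) : ℝ := exp (P.Λ * (1 - p.2.re ^ 2 / P.ρ ^ 2 - p.1.re ^ 2 / P.σ ^ 2))

/-- two chains of kicks with nearly the same composition.  Left chain: central (`|f| < G`) or high
(`G ≤ f`, only needed above `im ζ = -2 a`); right chain: central or low. -/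
structure Ch (P : Par) (k k' : ℕ) (f f' : ℕ → ℝ) (A A' : ℕ → ℂ × ℂ → ℂ × ℂ) : Prop where
  card : k + k' ≤ P.n
  fF : ∀ j < k, |f j| + P.d ≤ P.F ∧ -P.G < f j
  fF' : ∀ j < k', |f' j| + P.d ≤ P.F ∧ f' j < P.G
  kc : ∀ j < k, Kick P (f j) (if f j < P.G then -(P.v + 1) else -(2 * P.a)) (P.v + 1) (A j)
  kc' : ∀ j < k', Kick P (f' j) (-(P.v + 1)) (if -P.G < f' j then P.v + 1 else 2 * P.a) (A' j)
  sep : ∀ i < k, ∀ j < k, i ≠ j → f i < P.G → P.d ≤ |f i - f j|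
  sep' : ∀ i < k', ∀ j < k', i ≠ j → -P.G < f' i → P.d ≤ |f' i - f' j|
  sepx : ∀ i < k, ∀ j < k', f i < P.G ∨ -P.G < f' j → P.d ≤ |f i - f' j|
  eq : ∀ g : ℝ, |g| ≤ P.F → ∀ p ∈ Thin P g,
    ‖comp A k p - comp A' k' p‖ * wt P p ≤ P.c * P.d * P.a * P.B / 100

/-- a slope which separates the high kicks from the low ones and is away from all slopes -/
structure Cut (P : Par) (k k' : ℕ) (f f' : ℕ → ℝ) (g : ℝ) : Prop where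
  gF : |g| ≤ P.F
  l : ∀ j < k, P.d / 2 ≤ |f j - g| ∧ (P.G ≤ f j → g < f j)
  r : ∀ j < k', P.d / 2 ≤ |f' j - g| ∧ (f' j ≤ -P.G → f' j < g)

/-- the region where a central kick is estimated -/
def Reg (P : Par) (f : ℝ) : Set (ℂ × ℂ) :=
  {p | |p.1.re| < 2 * P.σ + 1 ∧ |p.2.re| < P.ρ + 1 ∧ |p.2.im| < 2 * P.a ∧ P.l₀ + 1 ≤ tt f p ∧
    tt f p < P.h}

/-- the bound of a central kick -/
def Small (P : Par) (f : ℝ) (A : ℂ × ℂ → ℂ × ℂ) : Prop := ∀ p ∈ Reg P f,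
  ‖A p‖ * wt P p ≤ 100 * P.B * exp (P.Λ * max 0 (P.l₀ + P.lam + 1 - tt f p) / (P.lam - 1))

/-- **(Q')**: central kicks and the composition itself are `exp (-Λ)` small -/
def Spec_Q : Prop := ∀ (P : Par) (k k' : ℕ) (f f' : ℕ → ℝ) (A A' : ℕ → ℂ × ℂ → ℂ × ℂ), P.OK →
  Ch P k k' f f' A A' → (∀ j < k, f j < P.G → Small P (f j) (A j)) ∧
    (∀ j < k', -P.G < f' j → Small P (f' j) (A' j)) ∧
    ∀ g, Cut P k k' f f' g → ∀ p ∈ Thin P g, |p.1.re| ≤ P.σ →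
      ‖comp A k p - p‖ * wt P p ≤ 1000 * P.n * P.B

/-! ## the rows -/

/-- 1801: maximum modulus on a closed rectangle -/
def S_RECT : Prop := ∀ (U : ℂ → ℂ × ℂ) (x₁ x₂ y₁ y₂ M : ℝ), x₁ < x₂ → y₁ < y₂ →
  (∀ z : ℂ, z.re ∈ Icc x₁ x₂ → z.im ∈ Icc y₁ y₂ → DifferentiableAt ℂ U z) →
  (∀ z : ℂ, z.re ∈ Icc x₁ x₂ → z.im ∈ Icc y₁ y₂ →
    z.re = x₁ ∨ z.re = x₂ ∨ z.im = y₁ ∨ z.im = y₂ → ‖U z‖ ≤ M) →
  ∀ z : ℂ, z.re ∈ Icc x₁ x₂ → z.im ∈ Icc y₁ y₂ → ‖U z‖ ≤ M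

/-- 1802: an upper and a lower function with a small sum are small -/
def S_MM : Prop := ∀ (U L : ℂ → ℂ × ℂ) (ρ v a μ M e : ℝ), 0 < ρ → 0 < a → a < v → 0 < μ →
  2 * μ * a ≤ 1 → 0 ≤ M → 0 ≤ e →
  (∀ z : ℂ, |z.re| ≤ ρ → z.im ∈ Icc (-a) v → DifferentiableAt ℂ U z) →
  (∀ z : ℂ, |z.re| ≤ ρ → z.im ∈ Icc (-v) a → DifferentiableAt ℂ L z) →
  (∀ z : ℂ, |z.re| ≤ ρ → z.im ∈ Icc (-a) v → |z.re| = ρ ∨ z.im = v →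
    ‖U z‖ * exp (μ * (z.im + a)) ≤ M) →
  (∀ z : ℂ, |z.re| ≤ ρ → z.im ∈ Icc (-v) a → |z.re| = ρ ∨ z.im = -v →
    ‖L z‖ * exp (μ * (a - z.im)) ≤ M) →
  (∀ z : ℂ, |z.re| ≤ ρ → |z.im| = a → ‖U z + L z‖ ≤ e) →
  (∀ z : ℂ, |z.re| ≤ ρ → z.im ∈ Icc (-a) v → ‖U z‖ * (μ * a) ≤ e + M) ∧
  ∀ z : ℂ, |z.re| ≤ ρ → z.im ∈ Icc (-v) a → ‖L z‖ * (μ * a) ≤ e + M

/-- 1803: size and differentiability of a composition of small maps -/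
def S_CMP : Prop := ∀ (A : ℕ → ℂ × ℂ → ℂ × ℂ) (k : ℕ) (p : ℂ × ℂ) (r m : ℝ), 0 ≤ m → k * m < r →
  (∀ j < k, DifferentiableOn ℂ (A j) (ball p r) ∧ ∀ q ∈ ball p r, ‖A j q‖ ≤ m) →
  DifferentiableAt ℂ (comp A k) p ∧ ‖comp A k p - p‖ ≤ k * m

/-- 1804: dropping the maps of `C` from a composition -/
def S_TEL : Prop := ∀ (A : ℕ → ℂ × ℂ → ℂ × ℂ) (C : ℕ → Prop) [DecidablePred C] (k : ℕ)
  (p : ℂ × ℂ) (r m s : ℝ), 0 < r → 0 ≤ m → 0 ≤ s → 4 * k * m ≤ r →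
  (∀ j < k, DifferentiableOn ℂ (A j) (ball p (2 * r)) ∧ (∀ q ∈ ball p (2 * r), ‖A j q‖ ≤ m) ∧
    (C j → ∀ q ∈ ball p (2 * r), ‖A j q‖ ≤ s)) →
  ‖comp A k p - comp (fun j => if C j then 0 else A j) k p -
    ∑ j ∈ (Finset.range k).filter C, A j p‖ * r ≤ 4 * k ^ 2 * m * s

/-- 1805: from one depth upwards -/
def S_UP : Prop := ∀ (P : Par) (f lo hi t₁ M : ℝ) (A : ℂ × ℂ → ℂ × ℂ) (ζ : ℂ), P.OK →
  Kick P f lo hi A → |ζ.re| ≤ P.ρ → lo < ζ.im → ζ.im < hi → P.l₀ + P.lam ≤ t₁ →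
  t₁ ≤ P.l₀ + P.lam + 1 → P.B ≤ M →
  (∀ z : ℂ, |z.re| ≤ P.σ → tt f (z, ζ) = t₁ → ‖A (z, ζ)‖ * wt P (z, ζ) ≤ M) →
  ∀ z : ℂ, |z.re| ≤ P.σ → P.l₀ + 1 ≤ tt f (z, ζ) → tt f (z, ζ) ≤ t₁ →
    ‖A (z, ζ)‖ * wt P (z, ζ) ≤ 3 * M * exp (P.Λ * (t₁ - tt f (z, ζ)) / (P.lam - 1))

end Vale.Agent.P097Q
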