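import Vale.Agent.P097Q.Defs

/-!
# P097Q: a composition of small maps
-/

set_option linter.all false

noncomputable section

namespace Vale.Agent.P097Q

open Set Metric

theorem cmp : S_CMP := by
  intro A k p r m hm hr hA
  have key : ∀ j ≤ k, DifferentiableAt ℂ (comp A j) p ∧ ‖comp A j p - p‖ ≤ j * m := by
    intro j
    induction j with
    | zero =>
      intro _
      refine ⟨?_, by simp [comp]⟩
      have : comp A 0 = fun q => q := by funext q; rfl
      rw [this]; exact differentiableAt_id
    | succ j ih =>
      intro hj
      obtain ⟨h1, h2⟩ := ih (by omega)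
      have hjk : (j : ℝ) ≤ k := by exact_mod_cast (by omega : j ≤ k)
      have hmem : comp A j p ∈ ball p r := by
        rw [mem_ball, dist_eq_norm]
        exact h2.trans_lt ((mul_le_mul_of_nonneg_right hjk hm).trans_lt hr)
      obtain ⟨h3, h4⟩ := hA j (by omega)
      have e : comp A (j + 1) = fun q => comp A j q + A j (comp A j q) := by funext q; rfl
      refine ⟨?_, ?_⟩
      · rw [e]
        exact h1.add ((h3.differentiableAt (isOpen_ball.mem_nhds hmem)).comp p h1)
      · rw [e]
        have : comp A j p + A j (comp A j p) - p = (comp A j p - p) + A j (comp A j p) := by abel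
        show ‖comp A j p + A j (comp A j p) - p‖ ≤ _
        rw [this]
        push_cast
        have := norm_add_le (comp A j p - p) (A j (comp A j p))
        have := h4 _ hmem
        linarith
  exact key k le_rfl

end Vale.Agent.P097Q
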