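import Vale.Agent.P097Q.Defs

/-!
# P097Q: an upper and a lower function with a small sum are small
-/

set_option linter.all false

noncomputable section

namespace Vale.Agent.P097Q

open Set Metric Real

theorem mm_wt (R : S_RECT) {U : ℂ → ℂ × ℂ} {ρ y₁ y₂ ν b N : ℝ} (ρ0 : 0 < ρ) (y0 : y₁ < y₂)
    (hd : ∀ z : ℂ, |z.re| ≤ ρ → z.im ∈ Icc y₁ y₂ → DifferentiableAt ℂ U z)
    (hb : ∀ z : ℂ, |z.re| ≤ ρ → z.im ∈ Icc y₁ y₂ → |z.re| = ρ ∨ z.im = y₁ ∨ z.im = y₂ →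
      ‖U z‖ * exp (ν * z.im + b) ≤ N) :
    ∀ z : ℂ, |z.re| ≤ ρ → z.im ∈ Icc y₁ y₂ → ‖U z‖ * exp (ν * z.im + b) ≤ N := by
  have e : ∀ z : ℂ, ‖Complex.exp (-(ν * Complex.I) * z + b) • U z‖ =
      ‖U z‖ * exp (ν * z.im + b) := fun z => by
    rw [norm_smul, Complex.norm_exp, mul_comm]
    simp
  intro z h1 h2
  rw [← e]
  refine R (fun z => Complex.exp (-(ν * Complex.I) * z + b) • U z) (-ρ) ρ y₁ y₂ N (by linarith) y0
    (fun w k1 k2 => DifferentiableAt.smul (c := fun z => Complex.exp (-(ν * Complex.I) * z + b))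
      (by fun_prop) (hd w (abs_le.2 k1) k2))
    (fun w k1 k2 k3 => ?_) z (abs_le.1 h1) h2
  rw [e]
  refine hb w (abs_le.2 k1) k2 ?_
  rcases k3 with k | k | k | k
  · exact .inl (by rw [k, abs_neg, abs_of_pos ρ0])
  · exact .inl (by rw [k, abs_of_pos ρ0])
  · exact .inr (.inl k)
  · exact .inr (.inr k)

theorem mm (R : S_RECT) : S_MM := by
  intro U L ρ v a μ M e ρ0 a0 av μ0 μa M0 e0 dU dL bU bL s
  have pt : ∀ u b : ℝ, ((⟨u, b⟩ : ℂ)) = u + b * Complex.I := fun u b =>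
    (Complex.re_add_im ⟨u, b⟩).symm
  have cU : ContinuousOn (fun u : ℝ => ‖U ⟨u, -a⟩‖) (Icc (-ρ) ρ) := fun u hu => by
    have c : Continuous fun u : ℝ => (⟨u, -a⟩ : ℂ) := by simp only [pt]; fun_prop
    exact (((dU ⟨u, -a⟩ (abs_le.2 hu) ⟨le_rfl, by show -a ≤ v; linarith⟩).continuousAt.comp
      (f := fun u : ℝ => (⟨u, -a⟩ : ℂ)) c.continuousAt).norm).continuousWithinAt
  have cL : ContinuousOn (fun u : ℝ => ‖L ⟨u, a⟩‖) (Icc (-ρ) ρ) := fun u hu => by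
    have c : Continuous fun u : ℝ => (⟨u, a⟩ : ℂ) := by simp only [pt]; fun_prop
    exact (((dL ⟨u, a⟩ (abs_le.2 hu) ⟨by show -v ≤ a; linarith, le_rfl⟩).continuousAt.comp
      (f := fun u : ℝ => (⟨u, a⟩ : ℂ)) c.continuousAt).norm).continuousWithinAt
  have ne : (Icc (-ρ) ρ).Nonempty := nonempty_Icc.2 (by linarith)
  obtain ⟨u₁, h₁, m₁⟩ := isCompact_Icc.exists_isMaxOn ne cU
  obtain ⟨u₂, h₂, m₂⟩ := isCompact_Icc.exists_isMaxOn ne cL
  set N := max (max ‖U ⟨u₁, -a⟩‖ ‖L ⟨u₂, a⟩‖) M with hN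
  have kU : ∀ z : ℂ, |z.re| ≤ ρ → z.im ∈ Icc (-a) v → ‖U z‖ * exp (μ * z.im + μ * a) ≤ N := by
    refine mm_wt R ρ0 (by linarith) dU fun z k1 k2 k3 => ?_
    rcases k3 with k | k | k
    · rw [← mul_add]; exact (bU z k1 k2 (.inl k)).trans (le_max_right _ _)
    · have e1 : z = ⟨z.re, -a⟩ := Complex.ext rfl k
      rw [k, mul_neg, neg_add_cancel, exp_zero, mul_one, e1]
      exact (m₁ (abs_le.1 k1)).trans ((le_max_left _ _).trans (le_max_left _ _))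
    · rw [← mul_add]; exact (bU z k1 k2 (.inr k)).trans (le_max_right _ _)
  have kL : ∀ z : ℂ, |z.re| ≤ ρ → z.im ∈ Icc (-v) a → ‖L z‖ * exp (-μ * z.im + μ * a) ≤ N := by
    refine mm_wt R ρ0 (by linarith) dL fun z k1 k2 k3 => ?_
    have e2 : -μ * z.im + μ * a = μ * (a - z.im) := by ring
    rcases k3 with k | k | k
    · rw [e2]; exact (bL z k1 k2 (.inl k)).trans (le_max_right _ _)
    · rw [e2]; exact (bL z k1 k2 (.inr k)).trans (le_max_right _ _)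
    · have e1 : z = ⟨z.re, a⟩ := Complex.ext rfl k
      rw [e2, k, sub_self, mul_zero, exp_zero, mul_one, e1]
      exact (m₂ (abs_le.1 k1)).trans ((le_max_right _ _).trans (le_max_left _ _))
  have x0 : 0 < μ * a := mul_pos μ0 a0
  have N0 : 0 ≤ N := M0.trans (le_max_right _ _)
  have q : ∀ y : ℝ, 0 ≤ y → y * exp (μ * a + μ * a) ≤ N → y ≤ (1 - μ * a) * N := fun y y0 h => by
    have a1 := add_one_le_exp (μ * a + μ * a)
    have a2 : y * (μ * a + μ * a + 1) ≤ N := (mul_le_mul_of_nonneg_left a1 y0).trans h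
    have a3 : 0 ≤ 1 - μ * a := by nlinarith
    have a4 := mul_le_mul_of_nonneg_left a2 a3
    have a5 : 0 ≤ y * (μ * a * (1 - 2 * μ * a)) := by
      have : 0 ≤ 1 - 2 * μ * a := by linarith
      positivity
    nlinarith
  have b1 : ‖U ⟨u₁, -a⟩‖ ≤ e + (1 - μ * a) * N := by
    have a1 := s ⟨u₁, -a⟩ (abs_le.2 h₁) (by show |-a| = a; rw [abs_neg, abs_of_pos a0])
    have a2 := kL ⟨u₁, -a⟩ (abs_le.2 h₁) ⟨by show -v ≤ -a; linarith, by show -a ≤ a; linarith⟩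
    have a3 := q _ (norm_nonneg (L ⟨u₁, -a⟩)) (by rwa [show -μ * (⟨u₁, -a⟩ : ℂ).im = μ * a by
      show -μ * -a = _; ring] at a2)
    have a4 := norm_sub_le (U ⟨u₁, -a⟩ + L ⟨u₁, -a⟩) (L ⟨u₁, -a⟩)
    rw [add_sub_cancel_right] at a4
    linarith
  have b2 : ‖L ⟨u₂, a⟩‖ ≤ e + (1 - μ * a) * N := by
    have a1 := s ⟨u₂, a⟩ (abs_le.2 h₂) (by show |a| = a; rw [abs_of_pos a0])
    have a2 := kU ⟨u₂, a⟩ (abs_le.2 h₂) ⟨by show -a ≤ a; linarith, by show a ≤ v; linarith⟩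
    have a3 := q _ (norm_nonneg (U ⟨u₂, a⟩)) a2
    have a4 := norm_sub_le (U ⟨u₂, a⟩ + L ⟨u₂, a⟩) (U ⟨u₂, a⟩)
    rw [add_sub_cancel_left] at a4
    linarith
  have fin : N * (μ * a) ≤ e + M := by
    rcases le_total (max ‖U ⟨u₁, -a⟩‖ ‖L ⟨u₂, a⟩‖) M with k | k
    · rw [hN, max_eq_right k]
      nlinarith
    · have := max_le b1 b2
      rw [← max_eq_left k, ← hN] at this
      linarith
  have out : ∀ y t : ℝ, 0 ≤ y → 0 ≤ t → y * exp t ≤ N → y * (μ * a) ≤ e + M := fun y t y0 t0 h =>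
    (mul_le_mul_of_nonneg_right ((le_mul_of_one_le_right y0 (one_le_exp t0)).trans h) x0.le).trans
      fin
  refine ⟨fun z k1 k2 => out _ _ (norm_nonneg _) ?_ (kU z k1 k2),
    fun z k1 k2 => out _ _ (norm_nonneg _) ?_ (kL z k1 k2)⟩
  · nlinarith [k2.1]
  · nlinarith [k2.2]

end Vale.Agent.P097Q
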