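import Vale.Agent.P097Q.Defs

/-!
# P097Q: maximum modulus on a closed rectangle
-/

set_option linter.all false

noncomputable section

namespace Vale.Agent.P097Q

open Set Metric Real Complex

theorem rect : S_RECT := by
  intro U x₁ x₂ y₁ y₂ M hx hy hd hb z hzx hzy
  have hc : closure (Ioo x₁ x₂ ×ℂ Ioo y₁ y₂) = Icc x₁ x₂ ×ℂ Icc y₁ y₂ := by
    rw [closure_reProdIm, closure_Ioo hx.ne, closure_Ioo hy.ne]
  refine Complex.norm_le_of_forall_mem_frontier_norm_le (U := Ioo x₁ x₂ ×ℂ Ioo y₁ y₂)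
    ((isBounded_Ioo _ _).reProdIm (isBounded_Ioo _ _)) ?_ ?_ ?_
  · refine DifferentiableOn.diffContOnCl ?_
    rw [hc]
    exact fun w hw => (hd w hw.1 hw.2).differentiableWithinAt
  · intro w hw
    rw [frontier_reProdIm, closure_Ioo hx.ne, closure_Ioo hy.ne, frontier_Ioo hx,
      frontier_Ioo hy] at hw
    rcases hw with ⟨h1, h2 | h2⟩ | ⟨h1 | h1, h2⟩
    · exact hb w h1 ⟨h2.ge, h2.le.trans hy.le⟩ (Or.inr (Or.inr (Or.inl h2)))
    · exact hb w h1 ⟨hy.le.trans h2.ge, h2.le⟩ (Or.inr (Or.inr (Or.inr h2)))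
    · exact hb w ⟨h1.ge, h1.le.trans hx.le⟩ h2 (Or.inl h1)
    · exact hb w ⟨hx.le.trans h1.ge, h1.le⟩ h2 (Or.inr (Or.inl h1))
  · rw [hc]
    exact ⟨hzx, hzy⟩

end Vale.Agent.P097Q
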