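import Vale.Agent.P097Q.Defs

/-!
# P097Q: dropping maps from a composition (row TEL)
-/

set_option linter.all false

namespace Vale.Agent.P097Q

open Set Metric

namespace TelL

/-- Lipschitz bound of a bounded holomorphic map -/
theorem lip {B : ℂ × ℂ → ℂ × ℂ} {p x y : ℂ × ℂ} {r b : ℝ} (r0 : 0 < r)
    (hd : DifferentiableOn ℂ B (ball p (2 * r))) (hb : ∀ q ∈ ball p (2 * r), ‖B q‖ ≤ b)
    (hx : ‖x - p‖ ≤ r / 4) (hy : ‖y - p‖ ≤ r / 4) : ‖B x - B y‖ * r ≤ 2 * b * ‖x - y‖ := by
  have sub : ball y r ⊆ ball p (2 * r) := ball_subset_ball' (by rw [dist_eq_norm]; linarith)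
  have hxy : x ∈ ball y r := by
    rw [mem_ball, dist_eq_norm]
    have := norm_sub_le (x - p) (y - p)
    rw [sub_sub_sub_cancel_right] at this
    linarith
  have := Complex.dist_le_div_mul_dist_of_mapsTo_ball (R₂ := 2 * b) (hd.mono sub) (fun q hq => by
    rw [mem_closedBall, dist_eq_norm]
    linarith [norm_sub_le (B q) (B y), hb q (sub hq), hb y (sub (mem_ball_self r0))]) hxy
  rw [dist_eq_norm, dist_eq_norm, div_mul_eq_mul_div, le_div_iff₀ r0] at this
  exact this

end TelL

open TelL in
theorem tel : S_TEL := by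
  intro A C _ k p r m s r0 m0 s0 hk hA
  have key : ∀ j ≤ k, ‖comp A j p - p‖ ≤ j * m ∧
      ‖comp (fun j => if C j then 0 else A j) j p - p‖ ≤ j * m ∧
      ‖∑ i ∈ (Finset.range j).filter C, A i p‖ ≤ j * s ∧
      ‖comp A j p - comp (fun j => if C j then 0 else A j) j p -
        ∑ i ∈ (Finset.range j).filter C, A i p‖ * r ≤ 4 * j ^ 2 * m * s := by
    intro j
    induction j with
    | zero => intro _; simp [comp]
    | succ j ih =>
      intro hj
      obtain ⟨h1, h2, h3, h4⟩ := ih (Nat.le_of_succ_le hj)
      obtain ⟨a1, a2, a3⟩ := hA j hj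
      have jk : (j : ℝ) ≤ k := by exact_mod_cast Nat.le_of_succ_le hj
      have j0 : (0 : ℝ) ≤ j := Nat.cast_nonneg j
      have jm : 4 * (j * m) ≤ r := by nlinarith [mul_le_mul_of_nonneg_right jk m0]
      have ms : 0 ≤ m * s := mul_nonneg m0 s0
      have mem : ∀ q : ℂ × ℂ, ‖q - p‖ ≤ j * m → q ∈ ball p (2 * r) := fun q hq => by
        rw [mem_ball, dist_eq_norm]; linarith
      have p0 : ‖p - p‖ ≤ j * m := by rw [sub_self, norm_zero]; positivity
      rw [Finset.range_add_one, Finset.filter_insert]
      simp only [comp]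
      set P := comp A j p
      set H := comp (fun j => if C j then 0 else A j) j p
      set S := ∑ i ∈ (Finset.range j).filter C, A i p
      have k1 : ‖P + A j P - p‖ ≤ (j + 1 : ℕ) * m := by
        rw [add_sub_right_comm]
        push_cast
        linarith [norm_add_le (P - p) (A j P), a2 P (mem P h1)]
      refine ⟨k1, ?_⟩
      by_cases hc : C j
      · rw [if_pos hc, if_pos hc, Finset.sum_insert (by simp), Pi.zero_apply, add_zero]
        have l := lip r0 a1 (a3 hc) (x := P) (y := p) (by linarith) (by linarith)
        have l2 := mul_le_mul_of_nonneg_left h1 (show 0 ≤ 2 * s by positivity)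
        push_cast
        refine ⟨by linarith, by linarith [norm_add_le (A j p) S, a3 hc p (mem p p0)], ?_⟩
        have e : P + A j P - H - (A j p + S) = (P - H - S) + (A j P - A j p) := by abel
        have := mul_le_mul_of_nonneg_right (norm_add_le (P - H - S) (A j P - A j p)) r0.le
        rw [e]
        nlinarith [mul_nonneg j0 ms]
      · rw [if_neg hc, if_neg hc]
        have l := lip r0 a1 a2 (x := P) (y := H) (by linarith) (by linarith)
        have l1 : ‖P - H - S‖ ≤ j * s := by
          refine le_of_mul_le_mul_right (h4.trans ?_) r0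
          nlinarith [mul_le_mul_of_nonneg_left jm (mul_nonneg j0 s0)]
        have l2 : ‖P - H‖ ≤ 2 * (j * s) := by
          have := norm_add_le (P - H - S) S
          rw [sub_add_cancel] at this
          linarith
        have l3 := mul_le_mul_of_nonneg_left l2 (show 0 ≤ 2 * m by positivity)
        push_cast
        refine ⟨?_, by linarith, ?_⟩
        · rw [add_sub_right_comm]
          linarith [norm_add_le (H - p) (A j H), a2 H (mem H h2)]
        · have e : P + A j P - (H + A j H) - S = (P - H - S) + (A j P - A j H) := by abel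
          have := mul_le_mul_of_nonneg_right (norm_add_le (P - H - S) (A j P - A j H)) r0.le
          rw [e]
          nlinarith [mul_nonneg j0 ms]
  exact (key k le_rfl).2.2.2

end Vale.Agent.P097Q
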