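import Vale.Agent.P097Q.Defs

/-!
# P097Q: from one depth upwards (maximum modulus on a rectangle)
-/

set_option linter.all false

noncomputable section

namespace Vale.Agent.P097Q

open Set Metric Real

theorem up_isOpen_Dom (P : Par) (f lo hi : ℝ) : IsOpen (Dom P f lo hi) := by
  have h1 : Continuous fun p : ℂ × ℂ => p.1.re := Complex.continuous_re.comp continuous_fst
  have h2 : Continuous fun p : ℂ × ℂ => p.2.re := Complex.continuous_re.comp continuous_snd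
  have h3 : Continuous fun p : ℂ × ℂ => p.2.im := Complex.continuous_im.comp continuous_snd
  have h4 : Continuous fun p : ℂ × ℂ => p.1.im := Complex.continuous_im.comp continuous_fst
  have h5 : Continuous (tt f) := (continuous_const.mul h3).sub h4
  exact (isOpen_lt h1.abs continuous_const).inter ((isOpen_lt h2.abs continuous_const).inter
    ((isOpen_lt continuous_const h3).inter ((isOpen_lt h3 continuous_const).inter
      ((isOpen_lt continuous_const h5).inter (isOpen_lt h5 continuous_const)))))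

/-- the exponent of the multiplier -/
def upE (P : Par) (ζ : ℂ) (y₁ : ℝ) (z : ℂ) : ℂ :=
  ((P.Λ * (1 - ζ.re ^ 2 / P.ρ ^ 2) : ℝ) : ℂ) -
    ((P.Λ / P.σ ^ 2 : ℝ) : ℂ) * ((z - Complex.I * y₁) * (z - Complex.I * y₁)) +
    Complex.I * ((P.Λ / (P.lam - 1) : ℝ) : ℂ) * (z - Complex.I * y₁)

theorem upE_re (P : Par) (ζ : ℂ) (y₁ : ℝ) (z : ℂ) :
    (upE P ζ y₁ z).re = P.Λ * (1 - ζ.re ^ 2 / P.ρ ^ 2 - z.re ^ 2 / P.σ ^ 2) +
      (P.Λ / P.σ ^ 2 * (z.im - y₁) ^ 2 - P.Λ / (P.lam - 1) * (z.im - y₁)) := by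
  unfold upE
  simp only [Complex.add_re, Complex.sub_re, Complex.mul_re, Complex.ofReal_re, Complex.ofReal_im,
    Complex.I_re, Complex.I_im, Complex.sub_im, Complex.mul_im]
  ring

theorem upE_diff (P : Par) (ζ : ℂ) (y₁ : ℝ) : Differentiable ℂ (upE P ζ y₁) := by
  unfold upE
  fun_prop

theorem up (R : S_RECT) : S_UP := by
  intro P f lo hi t₁ M A ζ hP hK hζ hlo hhi ht1 ht2 hBM hM z hz hd1 hd2
  have hσ : 2 ≤ P.σ := by nlinarith [hP.F1, hP.ρ1, hP.ρσ]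
  have hσ2 : 0 < P.σ ^ 2 := by positivity
  have hl1 : 1 ≤ P.lam - 1 := by linarith [hP.lam2]
  have hl0 : 0 < P.lam - 1 := by linarith
  have hB0 : 0 ≤ P.B := by linarith [hP.B1]
  have hM0 : 0 ≤ M := by linarith
  have hFv : 0 ≤ P.F * P.v := by nlinarith [hP.F1, hP.v1]
  have hν : 0 ≤ P.Λ / (P.lam - 1) := div_nonneg hP.Λ0 hl0.le
  set y₁ : ℝ := f * ζ.im - t₁ with hy
  have hdom : ∀ w : ℂ, w.re ∈ Icc (-P.σ) P.σ → w.im ∈ Icc y₁ (y₁ + (t₁ - P.l₀ - 1)) →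
      (w, ζ) ∈ Dom P f lo hi := by
    intro w hw1 hw2
    have ha : |w.re| ≤ P.σ := abs_le.2 hw1
    refine ⟨by show |w.re| < _; linarith, by show |ζ.re| < _; linarith, hlo, hhi, ?_, ?_⟩
    · show P.l₀ < f * ζ.im - w.im
      linarith [hw2.2]
    · show f * ζ.im - w.im < P.h
      linarith [hw2.1, hP.hl]
  have hnorm : ∀ w : ℂ, ‖Complex.exp (upE P ζ y₁ w) • A (w, ζ)‖ = ‖A (w, ζ)‖ * wt P (w, ζ) *
      exp (P.Λ / P.σ ^ 2 * (w.im - y₁) ^ 2 - P.Λ / (P.lam - 1) * (w.im - y₁)) := by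
    intro w
    rw [norm_smul, Complex.norm_exp, upE_re, exp_add]
    unfold wt
    ring
  have hsq : ∀ s : ℝ, 0 ≤ s → s ≤ t₁ - P.l₀ - 1 → P.Λ / P.σ ^ 2 * s ^ 2 ≤ 1 := by
    intro s h0 h1
    have h2 : s ^ 2 ≤ (P.lam + 1) ^ 2 := pow_le_pow_left₀ h0 (by linarith) 2
    rw [div_mul_eq_mul_div, div_le_one hσ2]
    exact (mul_le_mul_of_nonneg_left h2 hP.Λ0).trans hP.lamσ
  have hA : ∀ w : ℂ, w.re ∈ Icc (-P.σ) P.σ → w.im ∈ Icc y₁ (y₁ + (t₁ - P.l₀ - 1)) →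
      ‖A (w, ζ)‖ ≤ M := by
    intro w hw1 hw2
    have h1 := hK.bd _ (hdom w hw1 hw2)
    have h2 : exp (-(P.c * (tt f (w, ζ) - P.l₀))) ≤ 1 := by
      rw [exp_le_one_iff]
      have := (hdom w hw1 hw2).2.2.2.2.1
      nlinarith [hP.c0]
    nlinarith
  have hρ : 0 ≤ ζ.re ^ 2 / P.ρ ^ 2 := by positivity
  have e3 : exp 1 ≤ 3 := by linarith [exp_one_lt_d9]
  have e1 : 1 ≤ exp 1 := one_le_exp zero_le_one
  have key := R (fun w => Complex.exp (upE P ζ y₁ w) • A (w, ζ)) (-P.σ) P.σ y₁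
    (y₁ + (t₁ - P.l₀ - 1)) (exp 1 * M) (by linarith) (by linarith) ?_ ?_ z (abs_le.1 hz)
    ⟨by have : tt f (z, ζ) = f * ζ.im - z.im := rfl; linarith,
      by have : tt f (z, ζ) = f * ζ.im - z.im := rfl; linarith⟩
  · rw [hnorm] at key
    have hs : z.im - y₁ = t₁ - tt f (z, ζ) := by
      have : tt f (z, ζ) = f * ζ.im - z.im := rfl
      linarith
    rw [hs] at key
    set s := t₁ - tt f (z, ζ) with hs'
    have hX : 0 ≤ ‖A (z, ζ)‖ * wt P (z, ζ) := mul_nonneg (norm_nonneg _) (exp_pos _).le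
    have h1 : 1 ≤ exp (P.Λ / P.σ ^ 2 * s ^ 2 - P.Λ / (P.lam - 1) * s) *
        exp (P.Λ * s / (P.lam - 1)) := by
      rw [← exp_add]
      apply one_le_exp
      have : 0 ≤ P.Λ / P.σ ^ 2 * s ^ 2 := mul_nonneg (div_nonneg hP.Λ0 hσ2.le) (sq_nonneg _)
      have h3 : P.Λ * s / (P.lam - 1) = P.Λ / (P.lam - 1) * s := by ring
      linarith
    have h2 := mul_le_mul_of_nonneg_right key (exp_pos (P.Λ * s / (P.lam - 1))).le
    have h3 := mul_le_mul_of_nonneg_left h1 hX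
    have h4 : exp 1 * M * exp (P.Λ * s / (P.lam - 1)) ≤ 3 * M * exp (P.Λ * s / (P.lam - 1)) :=
      mul_le_mul_of_nonneg_right (mul_le_mul_of_nonneg_right e3 hM0) (exp_pos _).le
    calc ‖A (z, ζ)‖ * wt P (z, ζ) = ‖A (z, ζ)‖ * wt P (z, ζ) * 1 := (mul_one _).symm
      _ ≤ _ := h3
      _ = _ := (mul_assoc _ _ _).symm
      _ ≤ _ := h2
      _ ≤ _ := h4
  · intro w hw1 hw2
    have h1 : DifferentiableAt ℂ A (w, ζ) :=
      hK.an.differentiableAt ((up_isOpen_Dom P f lo hi).mem_nhds (hdom w hw1 hw2))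
    have h2 : DifferentiableAt ℂ (fun u : ℂ => A (u, ζ)) w :=
      h1.comp w (differentiableAt_id.prodMk (differentiableAt_const ζ))
    exact ((upE_diff P ζ y₁ w).cexp).smul h2
  · intro w hw1 hw2 hw
    show ‖Complex.exp (upE P ζ y₁ w) • A (w, ζ)‖ ≤ exp 1 * M
    rw [hnorm]
    have hs0 : 0 ≤ w.im - y₁ := by linarith [hw2.1]
    have hs1 : w.im - y₁ ≤ t₁ - P.l₀ - 1 := by linarith [hw2.2]
    have hq := hsq _ hs0 hs1
    have hAw := hA w hw1 hw2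
    have fin : wt P (w, ζ) * exp (P.Λ / P.σ ^ 2 * (w.im - y₁) ^ 2 -
        P.Λ / (P.lam - 1) * (w.im - y₁)) ≤ exp 1 → ‖A (w, ζ)‖ * wt P (w, ζ) *
        exp (P.Λ / P.σ ^ 2 * (w.im - y₁) ^ 2 - P.Λ / (P.lam - 1) * (w.im - y₁)) ≤ exp 1 * M := by
      intro h
      rw [mul_assoc, mul_comm (exp 1)]
      exact mul_le_mul hAw h (mul_nonneg (exp_pos _).le (exp_pos _).le) hM0
    have side : w.re ^ 2 = P.σ ^ 2 → ‖A (w, ζ)‖ * wt P (w, ζ) *
        exp (P.Λ / P.σ ^ 2 * (w.im - y₁) ^ 2 - P.Λ / (P.lam - 1) * (w.im - y₁)) ≤ exp 1 * M := by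
      intro h
      apply fin
      unfold wt
      rw [← exp_add, exp_le_exp]
      show P.Λ * (1 - ζ.re ^ 2 / P.ρ ^ 2 - w.re ^ 2 / P.σ ^ 2) + _ ≤ 1
      rw [h, div_self hσ2.ne']
      have := mul_nonneg hν hs0
      have := mul_nonneg hP.Λ0 hρ
      nlinarith
    rcases hw with h | h | h | h
    · exact side (by rw [h]; ring)
    · exact side (by rw [h])
    · have h1 := hM w (abs_le.2 hw1) (by show f * ζ.im - w.im = t₁; rw [h, hy]; ring)
      rw [h, sub_self]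
      simp only [ne_eq, OfNat.ofNat_ne_zero, not_false_eq_true, zero_pow, mul_zero, sub_self,
        exp_zero, mul_one]
      nlinarith
    · apply fin
      unfold wt
      rw [← exp_add, exp_le_exp]
      show P.Λ * (1 - ζ.re ^ 2 / P.ρ ^ 2 - w.re ^ 2 / P.σ ^ 2) + _ ≤ 1
      have h1 : P.lam - 1 ≤ w.im - y₁ := by rw [h]; linarith
      have h2 : P.Λ ≤ P.Λ / (P.lam - 1) * (w.im - y₁) := by
        have := mul_le_mul_of_nonneg_left h1 hν
        rwa [div_mul_cancel₀ _ hl0.ne'] at this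
      have h3 : 0 ≤ w.re ^ 2 / P.σ ^ 2 := by positivity
      have := mul_nonneg hP.Λ0 hρ
      have := mul_nonneg hP.Λ0 h3
      nlinarith

end Vale.Agent.P097Q
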