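import Vale.Agent.P097Q.Main
import Vale.Agent.P097Q.Rect
import Vale.Agent.P097Q.MM
import Vale.Agent.P097Q.Cmp
import Vale.Agent.P097Q.Tel
import Vale.Agent.P097Q.Up

/-!
# P097Q: the separation of kicks, closed
-/

namespace Vale.Agent.P097Q

/-- **(Q')** -/
theorem spec_Q : Spec_Q := q (mm rect) cmp tel (up rect)

end Vale.Agent.P097Q
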