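import Vale.Agent.P097Q.Defs

/-!
# P097Q: elementary estimates for the assembly
-/

set_option linter.all false

noncomputable section

namespace Vale.Agent.P097Q

open Set Metric Real

/-- the a priori size of all kicks on the working level -/
def kap (P : Par) : ℝ := P.B * exp (-(P.c * (P.lam - 1)))

theorem near {p q : ℂ × ℂ} {r : ℝ} (h : q ∈ ball p r) :
    |q.1.re - p.1.re| < r ∧ |q.1.im - p.1.im| < r ∧ |q.2.re - p.2.re| < r ∧
      |q.2.im - p.2.im| < r := by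
  rw [mem_ball, Prod.dist_eq, max_lt_iff, Complex.dist_eq, Complex.dist_eq] at h
  have a1 := Complex.abs_re_le_norm (q.1 - p.1)
  have a2 := Complex.abs_im_le_norm (q.1 - p.1)
  have a3 := Complex.abs_re_le_norm (q.2 - p.2)
  have a4 := Complex.abs_im_le_norm (q.2 - p.2)
  simp only [Complex.sub_re, Complex.sub_im] at a1 a2 a3 a4
  exact ⟨by linarith [h.1], by linarith [h.1], by linarith [h.2], by linarith [h.2]⟩

theorem tt_near {p q : ℂ × ℂ} {r f F : ℝ} (h : q ∈ ball p r) (hf : |f| ≤ F) :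
    |tt f q - tt f p| ≤ (F + 1) * r := by
  obtain ⟨-, h2, -, h4⟩ := near h
  have e : tt f q - tt f p = f * (q.2.im - p.2.im) - (q.1.im - p.1.im) := by unfold tt; ring
  rw [e]
  have : |f * (q.2.im - p.2.im)| ≤ F * r := by
    rw [abs_mul]; exact mul_le_mul hf h4.le (abs_nonneg _) ((abs_nonneg _).trans hf)
  have := abs_sub (f * (q.2.im - p.2.im)) (q.1.im - p.1.im)
  linarith

theorem tt_shift (f g : ℝ) (p : ℂ × ℂ) : tt f p = tt g p + (f - g) * p.2.im := by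
  unfold tt; ring

namespace Par.OK

variable {P : Par} (H : P.OK)
include H

theorem a8 : P.a ≤ 1 / 8 := by nlinarith [H.aF, H.F1, H.a0]
theorem Fa : P.F * P.a ≤ 1 / 8 := by nlinarith [H.aF]
theorem aFa : P.a ≤ P.F * P.a := by nlinarith [H.F1, H.a0]
theorem ρ0 : 0 < P.ρ := by linarith [H.ρ1]
theorem σρ : 2 * P.ρ ≤ P.σ := by nlinarith [H.ρσ, H.F1, H.ρ1]
theorem σ0 : 0 < P.σ := by linarith [H.σρ, H.ρ1]
theorem B0 : 0 < P.B := by linarith [H.B1]
theorem kap0 : 0 ≤ kap P := by have := H.B0; unfold kap; positivity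
theorem Fv : 1 ≤ P.F * P.v := by nlinarith [H.F1, H.v1]

end Par.OK

theorem wt_pos (P : Par) (p : ℂ × ℂ) : 0 < wt P p := exp_pos _

theorem wt_le {P : Par} (H : P.OK) (p : ℂ × ℂ) : wt P p ≤ exp P.Λ := by
  unfold wt
  apply exp_le_exp.2
  have : 0 ≤ p.2.re ^ 2 / P.ρ ^ 2 := by positivity
  have : 0 ≤ p.1.re ^ 2 / P.σ ^ 2 := by positivity
  nlinarith [H.Λ0]

theorem wt_le_one {P : Par} (H : P.OK) (p : ℂ × ℂ) (h : P.ρ ≤ |p.2.re| ∨ P.σ ≤ |p.1.re|) :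
    wt P p ≤ 1 := by
  unfold wt
  rw [exp_le_one_iff]
  have a1 : 0 ≤ p.2.re ^ 2 / P.ρ ^ 2 := by positivity
  have a2 : 0 ≤ p.1.re ^ 2 / P.σ ^ 2 := by positivity
  have := H.ρ0
  have := H.σ0
  apply mul_nonpos_of_nonneg_of_nonpos H.Λ0
  rcases h with h | h
  · have : 1 ≤ p.2.re ^ 2 / P.ρ ^ 2 := by
      rw [one_le_div (by positivity), ← sq_abs p.2.re]; gcongr
    linarith
  · have : 1 ≤ p.1.re ^ 2 / P.σ ^ 2 := by
      rw [one_le_div (by positivity), ← sq_abs p.1.re]; gcongr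
    linarith

theorem exp1_le : exp 1 ≤ 3 := by have := Real.exp_one_lt_d9; linarith

/-- the weight is nearly constant on small balls -/
theorem wt_near {P : Par} (H : P.OK) {p q : ℂ × ℂ} (h : q ∈ ball p P.a) (h1 : |p.1.re| ≤ 2 * P.σ)
    (h2 : |p.2.re| ≤ P.ρ) : wt P p ≤ 3 * wt P q := by
  obtain ⟨b1, -, b3, -⟩ := near h
  have hρ := H.ρ0
  have hσ := H.σ0
  have a8 := H.a8
  have a0 := H.a0
  have ρ1 := H.ρ1
  have σρ := H.σρ
  have e1 : q.2.re ^ 2 - p.2.re ^ 2 ≤ P.ρ := by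
    have : q.2.re ^ 2 - p.2.re ^ 2 = (q.2.re - p.2.re) * (q.2.re - p.2.re) +
      2 * (p.2.re * (q.2.re - p.2.re)) := by ring
    have c1 : p.2.re * (q.2.re - p.2.re) ≤ P.ρ * (1 / 8) :=
      (le_abs_self _).trans (by rw [abs_mul]; gcongr; linarith)
    have c2 : (q.2.re - p.2.re) * (q.2.re - p.2.re) ≤ (1 / 8) * (1 / 8) :=
      (le_abs_self _).trans (by rw [abs_mul]; gcongr <;> linarith)
    linarith
  have e2 : q.1.re ^ 2 - p.1.re ^ 2 ≤ P.σ := by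
    have : q.1.re ^ 2 - p.1.re ^ 2 = (q.1.re - p.1.re) * (q.1.re - p.1.re) +
      2 * (p.1.re * (q.1.re - p.1.re)) := by ring
    have c1 : p.1.re * (q.1.re - p.1.re) ≤ 2 * P.σ * (1 / 8) :=
      (le_abs_self _).trans (by rw [abs_mul]; gcongr; linarith)
    have c2 : (q.1.re - p.1.re) * (q.1.re - p.1.re) ≤ (1 / 8) * (1 / 8) :=
      (le_abs_self _).trans (by rw [abs_mul]; gcongr <;> linarith)
    linarith
  have f1 : P.Λ * ((q.2.re ^ 2 - p.2.re ^ 2) / P.ρ ^ 2) ≤ 1 / 2 := by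
    calc _ ≤ P.Λ * (P.ρ / P.ρ ^ 2) := by have := H.Λ0; gcongr
      _ = P.Λ / P.ρ := by field_simp
      _ ≤ 1 / 2 := by rw [div_le_iff₀ hρ]; linarith [H.Λρ, H.Λ0]
  have f2 : P.Λ * ((q.1.re ^ 2 - p.1.re ^ 2) / P.σ ^ 2) ≤ 1 / 2 := by
    calc _ ≤ P.Λ * (P.σ / P.σ ^ 2) := by have := H.Λ0; gcongr
      _ = P.Λ / P.σ := by field_simp
      _ ≤ 1 / 2 := by rw [div_le_iff₀ hσ]; linarith [H.Λρ, H.Λ0]
  calc wt P p ≤ exp 1 * wt P q := by
        unfold wt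
        rw [← exp_add]
        apply exp_le_exp.2
        have : P.Λ * (1 - p.2.re ^ 2 / P.ρ ^ 2 - p.1.re ^ 2 / P.σ ^ 2) =
          P.Λ * (1 - q.2.re ^ 2 / P.ρ ^ 2 - q.1.re ^ 2 / P.σ ^ 2) +
            P.Λ * ((q.2.re ^ 2 - p.2.re ^ 2) / P.ρ ^ 2) +
            P.Λ * ((q.1.re ^ 2 - p.1.re ^ 2) / P.σ ^ 2) := by ring
        linarith
    _ ≤ 3 * wt P q := by have := wt_pos P q; have := exp1_le; gcongr

/-- holomorphic and bounded by `m` on the ball -/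
def Gd (A : ℂ × ℂ → ℂ × ℂ) (p : ℂ × ℂ) (r m : ℝ) : Prop :=
  DifferentiableOn ℂ A (ball p r) ∧ ∀ q ∈ ball p r, ‖A q‖ ≤ m

/-- the working box -/
structure Bx (P : Par) (g : ℝ) (p : ℂ × ℂ) : Prop where
  x : |p.1.re| ≤ 2 * P.σ
  u : |p.2.re| ≤ P.ρ
  v : |p.2.im| ≤ P.v
  lo : P.l₀ + P.lam ≤ tt g p
  hi : tt g p ≤ P.h - 2 * P.F * P.v - 2

theorem Kick.gd {P : Par} (H : P.OK) {f g lo hi r y : ℝ} {A : ℂ × ℂ → ℂ × ℂ}
    (K : Kick P f lo hi A) {p : ℂ × ℂ} (b : Bx P g p) (hf : |f| ≤ P.F) (hg : |g| ≤ P.F)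
    (hr : r ≤ P.a) (h1 : lo ≤ p.2.im - r) (h2 : p.2.im + r ≤ hi) (y0 : 0 ≤ y)
    (hy : y - 2 * P.F * P.a ≤ (f - g) * p.2.im) :
    Gd A p r (kap P * exp (-(P.c * y))) ∧ ∀ q ∈ ball p r, |q.1.re| < 2 * P.σ + 1 ∧
      |q.2.re| < P.ρ + 1 ∧ P.l₀ + P.lam - 4 * P.F * P.a ≤ tt f q ∧ tt f q < P.h := by
  have a8 := H.a8
  have Fa := H.Fa
  have aFa := H.aFa
  have a0 := H.a0
  have up : (f - g) * p.2.im ≤ 2 * P.F * P.v := by
    refine (le_abs_self _).trans ?_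
    rw [abs_mul]
    have : |f - g| ≤ 2 * P.F := (abs_sub f g).trans (by linarith)
    exact mul_le_mul this b.v (abs_nonneg _) (by linarith [H.F1])
  have key : ∀ q ∈ ball p r, |q.1.re| < 2 * P.σ + 1 ∧ |q.2.re| < P.ρ + 1 ∧ lo < q.2.im ∧
      q.2.im < hi ∧ P.l₀ + P.lam + y - 4 * P.F * P.a ≤ tt f q ∧ tt f q < P.h := by
    intro q hq
    obtain ⟨b1, -, b3, b4⟩ := near hq
    have t1 := tt_near hq hf
    have t2 : (P.F + 1) * r ≤ 2 * P.F * P.a := by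
      have : (P.F + 1) * r ≤ (P.F + 1) * P.a := by have := H.F1; gcongr
      linarith
    rw [tt_shift f g p, abs_le] at t1
    have c1 := abs_sub_abs_le_abs_sub q.1.re p.1.re
    have c2 := abs_sub_abs_le_abs_sub q.2.re p.2.re
    rw [abs_lt] at b4
    refine ⟨by linarith [b.x], by linarith [b.u], by linarith, by linarith, ?_, ?_⟩
    · linarith [b.lo, t1.1]
    · linarith [b.hi, t1.2]
  have sub : ball p r ⊆ Dom P f lo hi := fun q hq => by
    obtain ⟨k1, k2, k3, k4, k5, k6⟩ := key q hq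
    exact ⟨k1, k2, k3, k4, by linarith [H.lam2], k6⟩
  refine ⟨⟨K.an.mono sub, fun q hq => (K.bd q (sub hq)).trans ?_⟩, fun q hq => ?_⟩
  · obtain ⟨-, -, -, -, k5, -⟩ := key q hq
    unfold kap
    rw [mul_assoc, ← exp_add]
    have := H.B0
    have := H.c0
    gcongr
    nlinarith
  · obtain ⟨k1, k2, -, -, k5, k6⟩ := key q hq
    exact ⟨k1, k2, by linarith, k6⟩

open Classical in
/-- the non central part of one chain with some central kicks of both chains -/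
def PP (A : ℕ → ℂ × ℂ → ℂ × ℂ) (k : ℕ) (C S : ℕ → Prop) (A' : ℕ → ℂ × ℂ → ℂ × ℂ) (k' : ℕ)
    (S' : ℕ → Prop) (p : ℂ × ℂ) : ℂ × ℂ :=
  comp (fun j => if C j then 0 else A j) k p - p + ∑ j ∈ (Finset.range k).filter S, A j p -
    ∑ j ∈ (Finset.range k').filter S', A' j p

open Classical in
theorem sum_gd {A : ℕ → ℂ × ℂ → ℂ × ℂ} {k : ℕ} {S : ℕ → Prop} {p : ℂ × ℂ} {r m : ℝ} (r0 : 0 < r)
    (m0 : 0 ≤ m) (h : ∀ j < k, S j → Gd (A j) p r m) :
    DifferentiableAt ℂ (fun p => ∑ j ∈ (Finset.range k).filter S, A j p) p ∧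
      ‖∑ j ∈ (Finset.range k).filter S, A j p‖ ≤ k * m := by
  constructor
  · refine DifferentiableAt.fun_sum fun j hj => ?_
    rw [Finset.mem_filter, Finset.mem_range] at hj
    exact (h j hj.1 hj.2).1.differentiableAt (ball_mem_nhds p r0)
  · refine (norm_sum_le _ _).trans ?_
    refine (Finset.sum_le_card_nsmul _ _ m fun j hj => ?_).trans ?_
    · rw [Finset.mem_filter, Finset.mem_range] at hj
      exact (h j hj.1 hj.2).2 p (mem_ball_self r0)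
    · rw [nsmul_eq_mul]
      have : (((Finset.range k).filter S).card : ℝ) ≤ k := by
        exact_mod_cast (Finset.card_filter_le _ _).trans (Finset.card_range k).le
      gcongr

open Classical in
theorem pp_gd (hC : S_CMP) {A A' : ℕ → ℂ × ℂ → ℂ × ℂ} {k k' : ℕ} {C S S' : ℕ → Prop}
    {p : ℂ × ℂ} {r m : ℝ} (m0 : 0 ≤ m) (km : k * m < r)
    (h : ∀ j < k, ¬ C j ∨ S j → Gd (A j) p r m) (h' : ∀ j < k', S' j → Gd (A' j) p r m) :
    DifferentiableAt ℂ (PP A k C S A' k' S') p ∧ ‖PP A k C S A' k' S' p‖ ≤ 2 * (k + k') * m := by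
  have r0 : 0 < r := lt_of_le_of_lt (by positivity) km
  obtain ⟨d1, n1⟩ := hC (fun j => if C j then 0 else A j) k p r m m0 km fun j hj => by
    by_cases c : C j
    · simp only [c, if_true]
      exact ⟨differentiableOn_const _, fun q _ => by simpa using m0⟩
    · simp only [c, if_false]
      exact h j hj (Or.inl c)
  obtain ⟨d2, n2⟩ := sum_gd r0 m0 fun j hj s => h j hj (Or.inr s)
  obtain ⟨d3, n3⟩ := sum_gd r0 m0 h'
  refine ⟨((d1.sub differentiableAt_id).add d2).sub d3, ?_⟩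
  unfold PP
  refine (norm_sub_le _ _).trans ?_
  have := norm_add_le (comp (fun j => if C j then 0 else A j) k p - p)
    (∑ j ∈ (Finset.range k).filter S, A j p)
  have : 0 ≤ (k' : ℝ) * m := by positivity
  linarith

/-- a bound which improves itself -/
theorem boot {α : Type} (S : Set α) (φ : α → ℝ) (c M₀ : ℝ) (h0 : ∀ x ∈ S, φ x ≤ M₀)
    (h : ∀ M, 0 ≤ M → (∀ x ∈ S, φ x ≤ M) → ∀ x ∈ S, φ x ≤ M / 2 + c) (c0 : 0 ≤ c) :
    ∀ x ∈ S, φ x ≤ 2 * c := by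
  intro x hx
  have bd : BddAbove (φ '' S) := ⟨M₀, by rintro _ ⟨y, hy, rfl⟩; exact h0 y hy⟩
  have le : ∀ y ∈ S, φ y ≤ sSup (φ '' S) := fun y hy => le_csSup bd ⟨y, hy, rfl⟩
  by_cases p : 0 ≤ sSup (φ '' S)
  · have : sSup (φ '' S) ≤ sSup (φ '' S) / 2 + c :=
      csSup_le ⟨_, x, hx, rfl⟩ (by rintro _ ⟨y, hy, rfl⟩; exact h _ p le y hy)
    linarith [le x hx]
  · linarith [le x hx]

end Vale.Agent.P097Q
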