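import Vale.Agent.P097Q.Bas

/-!
# P097Q: the estimate along one cut
-/

set_option linter.all false

noncomputable section

namespace Vale.Agent.P097Q

open Set Metric Real

/-- the region of the bootstrap -/
def XX (P : Par) (f : ℝ) : Set (ℂ × ℂ) :=
  {p | |p.1.re| < 2 * P.σ + 1 ∧ |p.2.re| < P.ρ + 1 ∧ |p.2.im| < 2 * P.a ∧
    P.l₀ + P.lam - 4 * P.F * P.a ≤ tt f p ∧ tt f p < P.h}

/-- all central kicks are at most `s` with the weight -/
def Bd (P : Par) (k k' : ℕ) (f f' : ℕ → ℝ) (A A' : ℕ → ℂ × ℂ → ℂ × ℂ) (s : ℝ) : Prop :=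
  (∀ j < k, f j < P.G → ∀ p ∈ XX P (f j), ‖A j p‖ * wt P p ≤ s) ∧
    ∀ j < k', -P.G < f' j → ∀ p ∈ XX P (f' j), ‖A' j p‖ * wt P p ≤ s

def UU (P : Par) (k k' : ℕ) (f f' : ℕ → ℝ) (A A' : ℕ → ℂ × ℂ → ℂ × ℂ) (g : ℝ) : ℂ × ℂ → ℂ × ℂ :=
  PP A k (fun j => f j < P.G) (fun j => f j < P.G ∧ g < f j) A' k'
    (fun j => -P.G < f' j ∧ g < f' j)

def LL (P : Par) (k k' : ℕ) (f f' : ℕ → ℝ) (A A' : ℕ → ℂ × ℂ → ℂ × ℂ) (g : ℝ) : ℂ × ℂ → ℂ × ℂ :=
  PP A' k' (fun j => -P.G < f' j) (fun j => -P.G < f' j ∧ f' j < g) A k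
    (fun j => f j < P.G ∧ f j < g)

variable {P : Par} {k k' : ℕ} {f f' : ℕ → ℝ} {A A' : ℕ → ℂ × ℂ → ℂ × ℂ}

theorem Ch.fF1 (H : P.OK) (C : Ch P k k' f f' A A') {j : ℕ} (hj : j < k) : |f j| ≤ P.F := by
  linarith [(C.fF j hj).1, H.d0]

theorem Ch.fF2 (H : P.OK) (C : Ch P k k' f f' A A') {j : ℕ} (hj : j < k') : |f' j| ≤ P.F := by
  linarith [(C.fF' j hj).1, H.d0]

theorem Ch.kk (C : Ch P k k' f f' A A') : (k : ℝ) + k' ≤ P.n := by exact_mod_cast C.card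

theorem small_k (H : P.OK) (C : Ch P k k' f f' A A') {m : ℝ} (m0 : 0 ≤ m) (hm : m ≤ kap P) :
    8 * (k * m) ≤ P.a ∧ 8 * (k' * m) ≤ P.a := by
  have h1 := H.sm1
  have h2 := C.kk
  have h3 : (0 : ℝ) ≤ k := by positivity
  have h4 : (0 : ℝ) ≤ k' := by positivity
  have h5 : (P.n : ℝ) * m ≤ P.n * kap P := by gcongr
  have h6 : (k : ℝ) * m ≤ P.n * m := mul_le_mul_of_nonneg_right (by linarith) m0
  have h7 : (k' : ℝ) * m ≤ P.n * m := mul_le_mul_of_nonneg_right (by linarith) m0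
  unfold kap at h5
  constructor <;> linarith

theorem slope_up {F a d x v : ℝ} (a0 : 0 < a) (hx : d / 2 ≤ x) (d0 : 0 < d) (xF : x ≤ 2 * F)
    (hv : -a ≤ v) : d / 2 * max v 0 - 2 * F * a ≤ x * v := by
  rcases le_total v 0 with h | h
  · rw [max_eq_right h]; nlinarith
  · rw [max_eq_left h]; nlinarith

theorem exp_le1 {c y : ℝ} (c0 : 0 < c) (y0 : 0 ≤ y) : exp (-(c * y)) ≤ 1 := by
  rw [exp_le_one_iff]; nlinarith

/-- the upper function -/
theorem uu_gd (hC : S_CMP) (H : P.OK) (C : Ch P k k' f f' A A') {g : ℝ} (c : Cut P k k' f f' g)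
    {p : ℂ × ℂ} (b : Bx P g p) (hv : -P.a ≤ p.2.im) :
    DifferentiableAt ℂ (UU P k k' f f' A A' g) p ∧ ‖UU P k k' f f' A A' g p‖ ≤
      2 * P.n * (kap P * exp (-(P.c * (P.d / 2 * max p.2.im 0)))) := by
  have a0 := H.a0
  have a8 := H.a8
  have d0 := H.d0
  have v1 := H.v1
  have y0 : 0 ≤ P.d / 2 * max p.2.im 0 := by positivity
  have bv := abs_le.1 b.v
  have k0 := H.kap0
  have m1 : kap P * exp (-(P.c * (P.d / 2 * max p.2.im 0))) ≤ kap P :=
    mul_le_of_le_one_right k0 (exp_le1 H.c0 y0)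
  have m0 : 0 ≤ kap P * exp (-(P.c * (P.d / 2 * max p.2.im 0))) := by positivity
  have sl : ∀ x : ℝ, |x| ≤ P.F → g < x → P.d / 2 ≤ |x - g| →
      P.d / 2 * max p.2.im 0 - 2 * P.F * P.a ≤ (x - g) * p.2.im := fun x h1 h2 h3 => by
    rw [abs_of_pos (by linarith)] at h3
    exact slope_up a0 h3 d0 (by linarith [abs_le.1 h1, abs_le.1 c.gF]) hv
  obtain ⟨d1, n1⟩ := pp_gd hC (A := A) (A' := A') (k := k) (k' := k') (C := fun j => f j < P.G)
    (S := fun j => f j < P.G ∧ g < f j) (S' := fun j => -P.G < f' j ∧ g < f' j) (p := p)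
    (r := P.a / 2) m0 (by linarith [(small_k H C m0 m1).1])
    (fun j hj h => by
      have gl : g < f j := h.elim (fun h => (c.l j hj).2 (not_lt.1 h)) (·.2)
      refine ((C.kc j hj).gd H b (C.fF1 H hj) c.gF (by linarith) ?_ (by linarith) y0
        (sl _ (C.fF1 H hj) gl (c.l j hj).1)).1
      split_ifs <;> linarith)
    (fun j hj h => by
      refine ((C.kc' j hj).gd H b (C.fF2 H hj) c.gF (by linarith) (by linarith) ?_ y0
        (sl _ (C.fF2 H hj) h.2 (c.r j hj).1)).1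
      rw [if_pos h.1]; linarith)
  refine ⟨d1, n1.trans ?_⟩
  have := C.kk
  gcongr

/-- the lower function -/
theorem ll_gd (hC : S_CMP) (H : P.OK) (C : Ch P k k' f f' A A') {g : ℝ} (c : Cut P k k' f f' g)
    {p : ℂ × ℂ} (b : Bx P g p) (hv : p.2.im ≤ P.a) :
    DifferentiableAt ℂ (LL P k k' f f' A A' g) p ∧ ‖LL P k k' f f' A A' g p‖ ≤
      2 * P.n * (kap P * exp (-(P.c * (P.d / 2 * max (-p.2.im) 0)))) := by
  have a0 := H.a0
  have a8 := H.a8
  have d0 := H.d0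
  have v1 := H.v1
  have y0 : 0 ≤ P.d / 2 * max (-p.2.im) 0 := by positivity
  have bv := abs_le.1 b.v
  have k0 := H.kap0
  have m1 : kap P * exp (-(P.c * (P.d / 2 * max (-p.2.im) 0))) ≤ kap P :=
    mul_le_of_le_one_right k0 (exp_le1 H.c0 y0)
  have m0 : 0 ≤ kap P * exp (-(P.c * (P.d / 2 * max (-p.2.im) 0))) := by positivity
  have sl : ∀ x : ℝ, |x| ≤ P.F → x < g → P.d / 2 ≤ |x - g| →
      P.d / 2 * max (-p.2.im) 0 - 2 * P.F * P.a ≤ (x - g) * p.2.im := fun x h1 h2 h3 => by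
    rw [abs_of_neg (by linarith)] at h3
    have := slope_up (F := P.F) (v := -p.2.im) a0 h3 d0
      (by linarith [abs_le.1 h1, abs_le.1 c.gF]) (by linarith)
    linarith
  obtain ⟨d1, n1⟩ := pp_gd hC (A := A') (A' := A) (k := k') (k' := k) (C := fun j => -P.G < f' j)
    (S := fun j => -P.G < f' j ∧ f' j < g) (S' := fun j => f j < P.G ∧ f j < g) (p := p)
    (r := P.a / 2) m0 (by linarith [(small_k H C m0 m1).2])
    (fun j hj h => by
      have gl : f' j < g := h.elim (fun h => (c.r j hj).2 (not_lt.1 h)) (·.2)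
      refine ((C.kc' j hj).gd H b (C.fF2 H hj) c.gF (by linarith) (by linarith) ?_ y0
        (sl _ (C.fF2 H hj) gl (c.r j hj).1)).1
      split_ifs <;> linarith)
    (fun j hj h => by
      refine ((C.kc j hj).gd H b (C.fF1 H hj) c.gF (by linarith) ?_ (by linarith) y0
        (sl _ (C.fF1 H hj) h.2 (c.l j hj).1)).1
      rw [if_pos h.1]; linarith)
  refine ⟨d1, n1.trans ?_⟩
  have := C.kk
  have : (k' : ℝ) + k ≤ P.n := by linarith
  gcongr

theorem Thin.bx (H : P.OK) {g : ℝ} {p : ℂ × ℂ} (h : p ∈ Thin P g) : Bx P g p :=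
  ⟨h.1, h.2.1, h.2.2.1.trans (by linarith [H.a8, H.v1]), h.2.2.2.1, h.2.2.2.2⟩

open Classical in
/-- a sum of some kicks -/
def SS (A : ℕ → ℂ × ℂ → ℂ × ℂ) (k : ℕ) (S : ℕ → Prop) (p : ℂ × ℂ) : ℂ × ℂ :=
  ∑ j ∈ (Finset.range k).filter S, A j p

open Classical in
/-- the composition without some kicks -/
def CC (A : ℕ → ℂ × ℂ → ℂ × ℂ) (k : ℕ) (C : ℕ → Prop) : ℂ × ℂ → ℂ × ℂ :=
  comp (fun j => if C j then 0 else A j) k

theorem PP_eq (A : ℕ → ℂ × ℂ → ℂ × ℂ) (k : ℕ) (C S : ℕ → Prop) (A' : ℕ → ℂ × ℂ → ℂ × ℂ) (k' : ℕ)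
    (S' : ℕ → Prop) (p : ℂ × ℂ) :
    PP A k C S A' k' S' p = CC A k C p - p + SS A k S p - SS A' k' S' p := rfl

open Classical in
/-- the error of the linear approximation -/
theorem err (hT : S_TEL) (H : P.OK) {k : ℕ} {f lo hi : ℕ → ℝ} {A : ℕ → ℂ × ℂ → ℂ × ℂ}
    {C : ℕ → Prop} (kn : 8 * (k * kap P) ≤ P.a) (hf : ∀ j < k, |f j| ≤ P.F)
    (K : ∀ j < k, Kick P (f j) (lo j) (hi j) (A j) ∧ lo j ≤ -(2 * P.a) ∧ 2 * P.a ≤ hi j) {s : ℝ}
    (s0 : 0 ≤ s) (hs : ∀ j < k, C j → ∀ p ∈ XX P (f j), ‖A j p‖ * wt P p ≤ s) {g : ℝ}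
    (hg : |g| ≤ P.F) {p : ℂ × ℂ} (h : p ∈ Thin P g) :
    ‖comp A k p - CC A k C p - SS A k C p‖ * wt P p * P.a ≤ 24 * k ^ 2 * kap P * s := by
  unfold CC SS
  have a0 := H.a0
  have w0 := wt_pos P p
  have b := Thin.bx H h
  have hv := abs_le.1 h.2.2.1
  have T := hT A C k p (P.a / 2) (kap P) (3 * s / wt P p) (by linarith) H.kap0 (by positivity)
    (by linarith) fun j hj => by
      obtain ⟨K1, K2, K3⟩ := K j hj
      have sl : 0 - 2 * P.F * P.a ≤ (f j - g) * p.2.im := by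
        have : |(f j - g) * p.2.im| ≤ 2 * P.F * P.a := by
          rw [abs_mul]
          exact mul_le_mul ((abs_sub _ _).trans (by linarith [hf j hj])) h.2.2.1 (abs_nonneg _)
            (by linarith [H.F1])
        linarith [abs_le.1 this]
      obtain ⟨⟨g1, g2⟩, g3⟩ := K1.gd H b (hf j hj) hg le_rfl (by linarith) (by linarith) le_rfl sl
      have e : 2 * (P.a / 2) = P.a := by ring
      rw [e]
      refine ⟨g1, fun q hq => by simpa using g2 q hq, fun c q hq => ?_⟩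
      obtain ⟨x1, x2, x3, x4⟩ := g3 q hq
      have x5 : |q.2.im| < 2 * P.a := by
        have := (near hq).2.2.2
        have := abs_sub_abs_le_abs_sub q.2.im p.2.im
        linarith [h.2.2.1]
      have x6 := hs j hj c q ⟨x1, x2, x5, x3, x4⟩
      have x7 := wt_near H hq h.1 h.2.1
      rw [le_div_iff₀ w0]
      calc _ ≤ ‖A j q‖ * (3 * wt P q) := by gcongr
        _ ≤ _ := by linarith
  have e : 4 * (k : ℝ) ^ 2 * kap P * (3 * s / wt P p) * wt P p = 12 * k ^ 2 * kap P * s := by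
    field_simp; ring
  have := mul_le_mul_of_nonneg_right T w0.le
  rw [e] at this
  linarith

theorem sum_split {A : ℕ → ℂ × ℂ → ℂ × ℂ} {k : ℕ} {C : ℕ → Prop} {f : ℕ → ℝ} {g : ℝ}
    (h : ∀ j < k, f j ≠ g) (p : ℂ × ℂ) : SS A k C p =
      SS A k (fun j => C j ∧ g < f j) p + SS A k (fun j => C j ∧ f j < g) p := by
  simp only [SS, Finset.sum_filter, ← Finset.sum_add_distrib]
  refine Finset.sum_congr rfl fun j hj => ?_
  rcases lt_or_gt_of_ne (h j (Finset.mem_range.1 hj)) with l | l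
  · by_cases c : C j <;> simp [c, l, l.not_gt]
  · by_cases c : C j <;> simp [c, l, l.not_gt]

theorem kcl (H : P.OK) (C : Ch P k k' f f' A A') : ∀ j < k, Kick P (f j)
    (if f j < P.G then -(P.v + 1) else -(2 * P.a)) (P.v + 1) (A j) ∧
    (if f j < P.G then -(P.v + 1) else -(2 * P.a)) ≤ -(2 * P.a) ∧ 2 * P.a ≤ P.v + 1 :=
  fun j hj => ⟨C.kc j hj, by split_ifs <;> linarith [H.a8, H.v1], by linarith [H.a8, H.v1]⟩

theorem kcr (H : P.OK) (C : Ch P k k' f f' A A') : ∀ j < k', Kick P (f' j) (-(P.v + 1))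
    (if -P.G < f' j then P.v + 1 else 2 * P.a) (A' j) ∧ -(P.v + 1) ≤ -(2 * P.a) ∧
    2 * P.a ≤ (if -P.G < f' j then P.v + 1 else 2 * P.a) :=
  fun j hj => ⟨C.kc' j hj, by linarith [H.a8, H.v1], by split_ifs <;> linarith [H.a8, H.v1]⟩

/-- the difference of the upper and the lower function is small on the thin region -/
theorem ul (hT : S_TEL) (H : P.OK) (C : Ch P k k' f f' A A') {s : ℝ} (s0 : 0 ≤ s)
    (hs : Bd P k k' f f' A A' s) {g : ℝ} (c : Cut P k k' f f' g) {p : ℂ × ℂ} (h : p ∈ Thin P g) :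
    ‖UU P k k' f f' A A' g p - LL P k k' f f' A A' g p‖ * wt P p ≤
      P.c * P.d * P.a * (s / 4000 + P.B / 100) := by
  have sk := small_k H C H.kap0 le_rfl
  have e1 := err hT H (C := fun j => f j < P.G) sk.1 (fun j hj => C.fF1 H hj) (kcl H C) s0 hs.1
    c.gF h
  have e2 := err hT H (C := fun j => -P.G < f' j) sk.2 (fun j hj => C.fF2 H hj) (kcr H C) s0 hs.2
    c.gF h
  have e3 := C.eq g c.gF p h
  have d0 := H.d0
  have n1 : ∀ j < k, f j ≠ g := fun j hj e => by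
    have := (c.l j hj).1; rw [e, sub_self, abs_zero] at this; linarith
  have n2 : ∀ j < k', f' j ≠ g := fun j hj e => by
    have := (c.r j hj).1; rw [e, sub_self, abs_zero] at this; linarith
  rw [sum_split n1] at e1
  rw [sum_split n2] at e2
  set E1 := comp A k p - _ - _ with h1
  set E2 := comp A' k' p - _ - _ with h2
  have id : UU P k k' f f' A A' g p - LL P k k' f f' A A' g p =
      (comp A k p - comp A' k' p) + (E2 - E1) := by
    rw [h1, h2]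
    unfold UU LL
    rw [PP_eq, PP_eq]
    abel
  rw [id]
  have w0 := wt_pos P p
  have a0 := H.a0
  have t1 : ‖(comp A k p - comp A' k' p) + (E2 - E1)‖ ≤
      ‖comp A k p - comp A' k' p‖ + (‖E2‖ + ‖E1‖) :=
    (norm_add_le _ _).trans (by gcongr; exact norm_sub_le _ _)
  have t2 : (k : ℝ) ^ 2 + k' ^ 2 ≤ P.n ^ 2 := by
    have := C.kk
    have h3 : (0 : ℝ) ≤ k := by positivity
    have h4 : (0 : ℝ) ≤ k' := by positivity
    nlinarith
  have t3 : (‖E2‖ + ‖E1‖) * wt P p * P.a ≤ P.c * P.d * P.a * (s / 4000) * P.a := by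
    have k0 := H.kap0
    have u1 : ((k : ℝ) ^ 2 + k' ^ 2) * (kap P * s) ≤ P.n ^ 2 * (kap P * s) := by gcongr
    have u2 : 10 ^ 5 * P.n ^ 2 * kap P * s ≤ P.c * P.d * P.a ^ 2 * s := by
      have := H.sm2; unfold kap; gcongr
    have u3 : 0 ≤ (P.n : ℝ) ^ 2 * (kap P * s) := by positivity
    nlinarith
  have t4 := le_of_mul_le_mul_right t3 a0
  calc _ ≤ (‖comp A k p - comp A' k' p‖ + (‖E2‖ + ‖E1‖)) * wt P p := by gcongr
    _ ≤ _ := by linarith

end Vale.Agent.P097Q
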