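import Vale.Agent.P097Q.Path

/-!
# P097Q: the assembly
-/

set_option linter.all false

noncomputable section

namespace Vale.Agent.P097Q

open Set Metric Real

variable {P : Par} {k k' : ℕ} {f f' : ℕ → ℝ} {A A' : ℕ → ℂ × ℂ → ℂ × ℂ}

theorem SS_congr {S T : ℕ → Prop} (h : ∀ j < k, S j ↔ T j) (p : ℂ × ℂ) :
    SS A k S p = SS A k T p := by
  unfold SS
  congr 1
  ext j
  simp only [Finset.mem_filter, Finset.mem_range]
  exact and_congr_right (h j)

theorem SS_one {S T : ℕ → Prop} {c : ℕ} (hc : c < k) (s : S c) (t : ¬ T c)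
    (h : ∀ j < k, j ≠ c → (S j ↔ T j)) (p : ℂ × ℂ) : SS A k S p = SS A k T p + A c p := by
  unfold SS
  simp only [Finset.sum_filter]
  rw [← Finset.add_sum_erase _ _ (Finset.mem_range.2 hc),
    ← Finset.add_sum_erase _ _ (Finset.mem_range.2 hc), if_pos s, if_neg t, zero_add, add_comm]
  congr 1
  refine Finset.sum_congr rfl fun j hj => ?_
  rw [Finset.mem_erase, Finset.mem_range] at hj
  by_cases q : S j
  · rw [if_pos q, if_pos ((h j hj.2 hj.1).1 q)]
  · rw [if_neg q, if_neg (mt (h j hj.2 hj.1).2 q)]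

open Classical in
theorem SS_bd {S : ℕ → Prop} {p : ℂ × ℂ} {w s : ℝ} (w0 : 0 ≤ w) (s0 : 0 ≤ s)
    (h : ∀ j < k, S j → ‖A j p‖ * w ≤ s) : ‖SS A k S p‖ * w ≤ k * s := by
  unfold SS
  refine (mul_le_mul_of_nonneg_right (norm_sum_le _ _) w0).trans ?_
  rw [Finset.sum_mul]
  refine (Finset.sum_le_card_nsmul _ _ s fun j hj => ?_).trans ?_
  · rw [Finset.mem_filter, Finset.mem_range] at hj
    exact h j hj.1 hj.2
  · rw [nsmul_eq_mul]
    refine mul_le_mul_of_nonneg_right ?_ s0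
    exact_mod_cast (Finset.card_filter_le _ _).trans (Finset.card_range k).le

theorem cut_of (H : P.OK) {x g : ℝ} (hx : |x| + P.d ≤ P.F) (h1 : -P.G < x) (h2 : x < P.G)
    (l : ∀ j < k, f j = x ∨ P.d ≤ |x - f j|) (r : ∀ j < k', f' j = x ∨ P.d ≤ |x - f' j|)
    (e : |x - g| = P.d / 2) : Cut P k k' f f' g := by
  have d0 := H.d0
  have e1 := abs_le.1 e.le
  have far : ∀ y : ℝ, y = x ∨ P.d ≤ |x - y| →
      P.d / 2 ≤ |y - g| ∧ (x < y → g < y) ∧ (y < x → y < g) := fun y h => by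
    rcases h with h | h
    · rw [h]; exact ⟨e.ge, fun h => absurd h (lt_irrefl _), fun h => absurd h (lt_irrefl _)⟩
    · refine ⟨?_, fun q => ?_, fun q => ?_⟩
      · have := abs_sub_le x g y
        rw [abs_sub_comm g y] at this
        linarith
      · rw [abs_of_neg (by linarith)] at h; linarith
      · rw [abs_of_pos (by linarith)] at h; linarith
  refine ⟨?_, fun j hj => ⟨(far _ (l j hj)).1, fun q => (far _ (l j hj)).2.1 (by linarith)⟩,
    fun j hj => ⟨(far _ (r j hj)).1, fun q => (far _ (r j hj)).2.2 (by linarith)⟩⟩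
  have := abs_sub_abs_le_abs_sub g x
  rw [abs_sub_comm g x] at this
  linarith

theorem sides {x y d : ℝ} (d0 : 0 < d) (h : d ≤ |x - y|) :
    (x - d / 2 < y ↔ x + d / 2 < y) ∧ (y < x + d / 2 ↔ y < x - d / 2) := by
  rcases le_abs.1 h with h | h <;> constructor <;> constructor <;> intro _ <;> linarith

/-- the middle depths -/
def Mid (P : Par) (x : ℝ) (T : ℂ × ℂ → ℂ × ℂ) (M : ℝ) : Prop := ∀ p : ℂ × ℂ, |p.1.re| ≤ P.σ →
  |p.2.re| ≤ P.ρ → |p.2.im| < 2 * P.a → P.l₀ + P.lam + P.F * P.a ≤ tt x p →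
  tt x p ≤ P.h - 2 * P.F * P.v - 2 - P.F * P.a → ‖T p‖ * wt P p ≤ M

theorem mid (hM : S_MM) (hC : S_CMP) (hT : S_TEL) (H : P.OK) (C : Ch P k k' f f' A A') {s : ℝ}
    (s0 : 0 ≤ s) (hs : Bd P k k' f f' A A' s) {x : ℝ} {T : ℂ × ℂ → ℂ × ℂ} (dF : P.d ≤ P.F)
    (c1 : Cut P k k' f f' (x - P.d / 2)) (c2 : Cut P k k' f f' (x + P.d / 2))
    (eU : ∀ p, ‖T p‖ = ‖UU P k k' f f' A A' (x - P.d / 2) p - UU P k k' f f' A A' (x + P.d / 2) p‖)
    (eL : ∀ p, ‖T p‖ = ‖LL P k k' f f' A A' (x - P.d / 2) p - LL P k k' f f' A A' (x + P.d / 2) p‖) :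
    Mid P x T (2 * (s / 100 + P.B / 5)) := by
  intro p hx hu hv lo hi
  have a0 := H.a0
  have a8 := H.a8
  have v1 := H.v1
  have d0 := H.d0
  have w0 := wt_pos P p
  have sh : |P.d / 2 * p.2.im| ≤ P.F * P.a := by
    rw [abs_mul, abs_of_pos (by linarith : 0 < P.d / 2)]
    nlinarith [abs_nonneg p.2.im]
  rw [abs_le] at sh
  rw [abs_lt] at hv
  have t1 : tt (x - P.d / 2) p = tt x p - P.d / 2 * p.2.im := by unfold tt; ring
  have t2 : tt (x + P.d / 2) p = tt x p + P.d / 2 * p.2.im := by unfold tt; ring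
  obtain ⟨u1, l1⟩ := key hM hC hT H C s0 hs c1 hx hu (by linarith) (by linarith)
  obtain ⟨u2, l2⟩ := key hM hC hT H C s0 hs c2 hx hu (by linarith) (by linarith)
  rcases le_total 0 p.2.im with h | h
  · rw [eU]
    refine (mul_le_mul_of_nonneg_right (norm_sub_le _ _) w0.le).trans ?_
    linarith [u1 (by linarith) (by linarith), u2 (by linarith) (by linarith)]
  · rw [eL]
    refine (mul_le_mul_of_nonneg_right (norm_sub_le _ _) w0.le).trans ?_
    linarith [l1 (by linarith) (by linarith), l2 (by linarith) (by linarith)]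

theorem triv (H : P.OK) {x lo hi : ℝ} {T : ℂ × ℂ → ℂ × ℂ} (K : Kick P x lo hi T) {p : ℂ × ℂ}
    (hp : p ∈ Dom P x lo hi) : ‖T p‖ ≤ P.B :=
  (K.bd p hp).trans (mul_le_of_le_one_right H.B0.le (exp_le1 H.c0 (by linarith [hp.2.2.2.2.1])))

theorem out (H : P.OK) {x lo hi : ℝ} {T : ℂ × ℂ → ℂ × ℂ} (K : Kick P x lo hi T) {p : ℂ × ℂ}
    (hp : p ∈ Dom P x lo hi) (h : ¬ (|p.1.re| ≤ P.σ ∧ |p.2.re| ≤ P.ρ)) : ‖T p‖ * wt P p ≤ P.B := by
  have : wt P p ≤ 1 := wt_le_one H p (by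
    by_cases q : |p.1.re| ≤ P.σ
    · exact Or.inl (not_le.1 fun r => h ⟨q, r⟩).le
    · exact Or.inr (not_le.1 q).le)
  exact (mul_le_of_le_one_right (norm_nonneg _) this).trans (triv H K hp)

theorem XX.dom (H : P.OK) {x : ℝ} {p : ℂ × ℂ} (hp : p ∈ XX P x) :
    p ∈ Dom P x (-(P.v + 1)) (P.v + 1) := by
  obtain ⟨h1, h2, h3, h4, h5⟩ := hp
  rw [abs_lt] at h3
  exact ⟨h1, h2, by linarith [H.a8, H.v1], by linarith [H.a8, H.v1],
    by linarith [H.Fa, H.lam2], h5⟩

/-- from the middle depths to the whole region -/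
theorem imp (hU : S_UP) (H : P.OK) {x M : ℝ} {T : ℂ × ℂ → ℂ × ℂ} (M0 : 0 ≤ M)
    (K : Kick P x (-(P.v + 1)) (P.v + 1) T) (h : Mid P x T M) :
    ∀ p ∈ XX P x, ‖T p‖ * wt P p ≤ 9 * (M + P.B) := by
  intro p hp
  have hd := XX.dom H hp
  have B0 := H.B0
  have Fa := H.Fa
  have aFa := H.aFa
  have a0 := H.a0
  by_cases q : |p.1.re| ≤ P.σ ∧ |p.2.re| ≤ P.ρ
  swap
  · linarith [out H K hd q]
  by_cases q1 : tt x p ≤ P.h - 2 * P.F * P.v - 2 - P.F * P.a
  swap
  · have : ‖T p‖ * wt P p ≤ P.B * exp (-(P.c * (tt x p - P.l₀))) * exp P.Λ :=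
      mul_le_mul (K.bd p hd) (wt_le H p) (wt_pos P p).le (by positivity)
    rw [mul_assoc, ← exp_add] at this
    have e : exp (-(P.c * (tt x p - P.l₀)) + P.Λ) ≤ 1 := by
      rw [exp_le_one_iff]
      have : P.c * (P.h - 2 * P.F * P.v - 3) ≤ P.c * tt x p :=
        mul_le_mul_of_nonneg_left (by linarith) H.c0.le
      linarith [H.deep]
    have := mul_le_of_le_one_right B0.le e
    linarith
  by_cases q2 : P.l₀ + P.lam + P.F * P.a ≤ tt x p
  · linarith [h p q.1 q.2 hp.2.2.1 q2 q1]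
  have := hU P x _ _ (P.l₀ + P.lam + P.F * P.a) (M + P.B) T p.2 H K q.2 hd.2.2.1 hd.2.2.2.1
    (by linarith) (by linarith) (by linarith)
    (fun z hz e => by
      linarith [h (z, p.2) hz q.2 hp.2.2.1 e.ge (by rw [e]; linarith [H.hl])])
    p.1 q.1 (by linarith [hp.2.2.2.1, H.lam2]) (not_le.1 q2).le
  refine this.trans ?_
  have e : exp (P.Λ * (P.l₀ + P.lam + P.F * P.a - tt x (p.1, p.2)) / (P.lam - 1)) ≤ 3 := by
    refine (exp_le_exp.2 ?_).trans exp1_le
    rw [div_le_one (by linarith [H.lam2])]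
    have : P.Λ * (P.l₀ + P.lam + P.F * P.a - tt x (p.1, p.2)) ≤ P.Λ * (8 * P.F * P.a) :=
      mul_le_mul_of_nonneg_left (by linarith [hp.2.2.2.1]) H.Λ0
    linarith [H.lamΛ]
  calc _ ≤ 3 * (M + P.B) * 3 := by gcongr
    _ = _ := by ring

theorem kl (C : Ch P k k' f f' A A') {j : ℕ} (hj : j < k) (c : f j < P.G) :
    Kick P (f j) (-(P.v + 1)) (P.v + 1) (A j) := by
  have := C.kc j hj; rwa [if_pos c] at this

theorem kr (C : Ch P k k' f f' A A') {j : ℕ} (hj : j < k') (c : -P.G < f' j) :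
    Kick P (f' j) (-(P.v + 1)) (P.v + 1) (A' j) := by
  have := C.kc' j hj; rwa [if_pos c] at this

theorem step (hM : S_MM) (hC : S_CMP) (hT : S_TEL) (hU : S_UP) (H : P.OK)
    (C : Ch P k k' f f' A A') {s : ℝ} (s0 : 0 ≤ s) (hs : Bd P k k' f f' A A' s) :
    Bd P k k' f f' A A' (s / 2 + 13 * P.B) := by
  have d0 := H.d0
  have B0 := H.B0
  have e1 : ∀ x : ℝ, |x - (x - P.d / 2)| = P.d / 2 := fun x => by
    rw [sub_sub_cancel, abs_of_pos (by linarith)]
  have e2 : ∀ x : ℝ, |x - (x + P.d / 2)| = P.d / 2 := fun x => by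
    rw [sub_add_cancel_left, abs_neg, abs_of_pos (by linarith)]
  constructor
  · intro c hc cc p hp
    have l : ∀ j < k, f j = f c ∨ P.d ≤ |f c - f j| := fun j hj => by
      by_cases e : c = j
      · exact Or.inl (e ▸ rfl)
      · exact Or.inr (C.sep c hc j hj e cc)
    have r : ∀ j < k', P.d ≤ |f c - f' j| := fun j hj => C.sepx c hc j hj (Or.inl cc)
    have cu := fun g => cut_of (f := f) (f' := f') (g := g) H (C.fF c hc).1 (C.fF c hc).2 cc l
      fun j hj => Or.inr (r j hj)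
    have := imp hU H (by positivity) (kl C hc cc) (mid hM hC hT H C s0 hs
      (by linarith [(C.fF c hc).1, abs_nonneg (f c)]) (cu _ (e1 _)) (cu _ (e2 _))
      (fun p => by
        unfold UU
        rw [PP_eq, PP_eq, SS_one (T := fun j => f j < P.G ∧ f c + P.d / 2 < f j) hc
          ⟨cc, by linarith⟩ (fun h => by linarith [h.2]) (fun j hj ne => and_congr_right
            fun _ => (sides d0 (C.sep c hc j hj ne.symm cc)).1),
          SS_congr (A := A') (T := fun j => -P.G < f' j ∧ f c + P.d / 2 < f' j)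
            fun j hj => and_congr_right fun _ => (sides d0 (r j hj)).1]
        congr 1; abel)
      (fun p => by
        unfold LL
        rw [PP_eq, PP_eq, SS_one (S := fun j => f j < P.G ∧ f j < f c + P.d / 2)
          (T := fun j => f j < P.G ∧ f j < f c - P.d / 2) hc
          ⟨cc, by linarith⟩ (fun h => by linarith [h.2]) (fun j hj ne => and_congr_right
            fun _ => (sides d0 (C.sep c hc j hj ne.symm cc)).2),
          SS_congr (A := A') (S := fun j => -P.G < f' j ∧ f' j < f c + P.d / 2)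
            (T := fun j => -P.G < f' j ∧ f' j < f c - P.d / 2)
            fun j hj => and_congr_right fun _ => (sides d0 (r j hj)).2]
        congr 1; abel)) p hp
    linarith
  · intro c hc cc p hp
    have r : ∀ j < k', f' j = f' c ∨ P.d ≤ |f' c - f' j| := fun j hj => by
      by_cases e : c = j
      · exact Or.inl (e ▸ rfl)
      · exact Or.inr (C.sep' c hc j hj e cc)
    have l : ∀ j < k, P.d ≤ |f' c - f j| := fun j hj => by
      rw [abs_sub_comm]; exact C.sepx j hj c hc (Or.inr cc)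
    have cu := fun g => cut_of (f := f) (f' := f') (g := g) H (C.fF' c hc).1 cc (C.fF' c hc).2
      (fun j hj => Or.inr (l j hj)) r
    have := imp hU H (by positivity) (kr C hc cc) (mid hM hC hT H C s0 hs
      (by linarith [(C.fF' c hc).1, abs_nonneg (f' c)]) (cu _ (e1 _)) (cu _ (e2 _))
      (fun p => by
        unfold UU
        rw [PP_eq, PP_eq, SS_one (A := A') (T := fun j => -P.G < f' j ∧ f' c + P.d / 2 < f' j) hc
          ⟨cc, by linarith⟩ (fun h => by linarith [h.2]) (fun j hj ne => and_congr_right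
            fun _ => (sides d0 (C.sep' c hc j hj ne.symm cc)).1),
          SS_congr (A := A) (T := fun j => f j < P.G ∧ f' c + P.d / 2 < f j)
            fun j hj => and_congr_right fun _ => (sides d0 (l j hj)).1, ← norm_neg]
        congr 1; abel)
      (fun p => by
        unfold LL
        rw [PP_eq, PP_eq, SS_one (A := A') (S := fun j => -P.G < f' j ∧ f' j < f' c + P.d / 2)
          (T := fun j => -P.G < f' j ∧ f' j < f' c - P.d / 2) hc
          ⟨cc, by linarith⟩ (fun h => by linarith [h.2]) (fun j hj ne => and_congr_right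
            fun _ => (sides d0 (C.sep' c hc j hj ne.symm cc)).2),
          SS_congr (A := A) (S := fun j => f j < P.G ∧ f j < f' c + P.d / 2)
            (T := fun j => f j < P.G ∧ f j < f' c - P.d / 2)
            fun j hj => and_congr_right fun _ => (sides d0 (l j hj)).2, ← norm_neg]
        congr 1; abel)) p hp
    linarith

theorem boot2 (Q : ℝ → Prop) (c M₀ : ℝ) (c0 : 0 ≤ c) (M0 : 0 ≤ M₀) (h0 : Q M₀)
    (h : ∀ M, 0 ≤ M → Q M → Q (M / 2 + c)) {x : ℝ} (hx : ∀ M, Q M → x ≤ M) : x ≤ 2 * c := by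
  have ne : {M | 0 ≤ M ∧ Q M}.Nonempty := ⟨M₀, M0, h0⟩
  have bd : BddBelow {M | 0 ≤ M ∧ Q M} := ⟨0, fun _ h => h.1⟩
  have h1 : x ≤ sInf {M | 0 ≤ M ∧ Q M} := le_csInf ne fun M q => hx M q.2
  have h2 : 2 * (sInf {M | 0 ≤ M ∧ Q M} - c) ≤ sInf {M | 0 ≤ M ∧ Q M} := le_csInf ne fun M q => by
    have := csInf_le bd (show M / 2 + c ∈ {M | 0 ≤ M ∧ Q M} from
      ⟨by linarith [q.1], h M q.1 q.2⟩)
    linarith
  linarith

theorem bd_all (hM : S_MM) (hC : S_CMP) (hT : S_TEL) (hU : S_UP) (H : P.OK)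
    (C : Ch P k k' f f' A A') : Bd P k k' f f' A A' (2 * (13 * P.B)) := by
  have B0 := H.B0
  have h0 : Bd P k k' f f' A A' (P.B * exp P.Λ) :=
    ⟨fun j hj c p hp => mul_le_mul (triv H (kl C hj c) (XX.dom H hp)) (wt_le H p)
      (wt_pos P p).le B0.le, fun j hj c p hp => mul_le_mul (triv H (kr C hj c) (XX.dom H hp))
      (wt_le H p) (wt_pos P p).le B0.le⟩
  have b := fun x => boot2 (x := x) (Bd P k k' f f' A A') (13 * P.B) _ (by positivity)
    (by positivity) h0 fun M M0 q => step hM hC hT hU H C M0 q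
  exact ⟨fun j hj c p hp => b _ fun M q => q.1 j hj c p hp,
    fun j hj c p hp => b _ fun M q => q.2 j hj c p hp⟩

theorem small_of (hU : S_UP) (H : P.OK) {x : ℝ} {T : ℂ × ℂ → ℂ × ℂ}
    (K : Kick P x (-(P.v + 1)) (P.v + 1) T)
    (h : ∀ p ∈ XX P x, ‖T p‖ * wt P p ≤ 2 * (13 * P.B)) : Small P x T := by
  intro p hp
  obtain ⟨h1, h2, h3, h4, h5⟩ := hp
  have B0 := H.B0
  have Fa := H.Fa
  have aFa := H.aFa
  have a0 := H.a0
  have l1 : 0 < P.lam - 1 := by linarith [H.lam2]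
  have L0 := H.Λ0
  have m0 := le_max_left 0 (P.l₀ + P.lam + 1 - tt x p)
  have e1 : 1 ≤ exp (P.Λ * max 0 (P.l₀ + P.lam + 1 - tt x p) / (P.lam - 1)) :=
    one_le_exp (by positivity)
  have e2 := le_mul_of_one_le_right (by positivity : 0 ≤ 100 * P.B) e1
  have h3' := abs_lt.1 h3
  have hd : p ∈ Dom P x (-(P.v + 1)) (P.v + 1) :=
    ⟨h1, h2, by linarith [H.a8, H.v1], by linarith [H.a8, H.v1], by linarith, h5⟩
  by_cases q : |p.1.re| ≤ P.σ ∧ |p.2.re| ≤ P.ρ
  swap
  · linarith [out H K hd q]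
  by_cases q2 : P.l₀ + P.lam ≤ tt x p
  · linarith [h p ⟨h1, h2, h3, by linarith, h5⟩]
  have := hU P x _ _ (P.l₀ + P.lam) (2 * (13 * P.B)) T p.2 H K q.2 hd.2.2.1 hd.2.2.2.1
    le_rfl (by linarith) (by linarith)
    (fun z hz e => h (z, p.2) ⟨by linarith [H.σ0, show |(z, p.2).1.re| ≤ P.σ from hz], h2, h3,
      by rw [e]; linarith, by rw [e]; linarith [H.hl, H.Fv]⟩)
    p.1 q.1 h4 (not_le.1 q2).le
  refine this.trans ?_
  have m1 := le_max_right 0 (P.l₀ + P.lam + 1 - tt x p)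
  have : P.l₀ + P.lam - tt x (p.1, p.2) ≤ max 0 (P.l₀ + P.lam + 1 - tt x p) := by
    show P.l₀ + P.lam - tt x p ≤ _
    linarith
  exact mul_le_mul (by linarith) (exp_le_exp.2 (by gcongr)) (exp_pos _).le (by positivity)

/-- **(Q')** from the rows -/
theorem q (hM : S_MM) (hC : S_CMP) (hT : S_TEL) (hU : S_UP) : Spec_Q := by
  intro P k k' f f' A A' H C
  have b := bd_all hM hC hT hU H C
  refine ⟨fun j hj c => small_of hU H (kl C hj c) (b.1 j hj c),
    fun j hj c => small_of hU H (kr C hj c) (b.2 j hj c), fun g c p hp hx => ?_⟩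
  have B0 := H.B0
  have a0 := H.a0
  have a8 := H.a8
  have v1 := H.v1
  have Fa := H.Fa
  have aFa := H.aFa
  have w0 := wt_pos P p
  have s0 : 0 ≤ 2 * (13 * P.B) := by positivity
  have sk := small_k H C H.kap0 le_rfl
  have hv := abs_le.1 hp.2.2.1
  have e1 := err hT H (C := fun j => f j < P.G) sk.1 (fun j hj => C.fF1 H hj) (kcl H C) s0 b.1
    c.gF hp
  have e2 := (key hM hC hT H C s0 b c hx hp.2.1 hp.2.2.2.1 hp.2.2.2.2).1 hv.1 (by linarith)
  have xx : ∀ y : ℝ, |y| ≤ P.F → p ∈ XX P y := fun y hy => by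
    have : |(y - g) * p.2.im| ≤ 2 * P.F * P.a := by
      rw [abs_mul]
      exact mul_le_mul ((abs_sub _ _).trans (by linarith [c.gF])) hp.2.2.1 (abs_nonneg _)
        (by linarith [H.F1])
    rw [abs_le] at this
    have t := tt_shift y g p
    exact ⟨by linarith [hp.1], by linarith [hp.2.1], by linarith [hp.2.2.1],
      by linarith [hp.2.2.2.1], by linarith [hp.2.2.2.2, H.Fv]⟩
  have e3 := SS_bd (A := A) (k := k) (S := fun j => f j < P.G) w0.le s0
    fun j hj q => b.1 j hj q p (xx _ (C.fF1 H hj))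
  have e4 := SS_bd (A := A) (k := k) (S := fun j => f j < P.G ∧ g < f j) w0.le s0
    fun j hj q => b.1 j hj q.1 p (xx _ (C.fF1 H hj))
  have e5 := SS_bd (A := A') (k := k') (S := fun j => -P.G < f' j ∧ g < f' j) w0.le s0
    fun j hj q => b.2 j hj q.1 p (xx _ (C.fF2 H hj))
  set E := comp A k p - _ - _ with hE
  have id : comp A k p - p = E + UU P k k' f f' A A' g p + SS A k (fun j => f j < P.G) p -
      SS A k (fun j => f j < P.G ∧ g < f j) p + SS A' k' (fun j => -P.G < f' j ∧ g < f' j) p := by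
    rw [hE]; unfold UU; rw [PP_eq]; abel
  have k0 : (0 : ℝ) ≤ k := by positivity
  have k1 : (0 : ℝ) ≤ k' := by positivity
  have kk := C.kk
  have n1 : (1 : ℝ) ≤ P.n := by exact_mod_cast H.n1
  have e6 : ‖E‖ * wt P p ≤ 3 * (k * (2 * (13 * P.B))) := by
    refine le_of_mul_le_mul_right (e1.trans ?_) a0
    have : 8 * (k * kap P) * (3 * (k * (2 * (13 * P.B)))) ≤ P.a * (3 * (k * (2 * (13 * P.B)))) := by
      gcongr; exact sk.1
    linarith
  have e7 : (k : ℝ) * P.B ≤ P.n * P.B := mul_le_mul_of_nonneg_right (by linarith) B0.le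
  have e8 : (k' : ℝ) * P.B ≤ P.n * P.B := mul_le_mul_of_nonneg_right (by linarith) B0.le
  have e9 : P.B ≤ P.n * P.B := le_mul_of_one_le_left B0.le n1
  rw [id]
  have t : ∀ a b c d e : ℂ × ℂ, ‖a + b + c - d + e‖ ≤ ‖a‖ + ‖b‖ + ‖c‖ + ‖d‖ + ‖e‖ :=
    fun a b c d e => by
      linarith [norm_add_le (a + b + c - d) e, norm_sub_le (a + b + c) d, norm_add_le (a + b) c,
        norm_add_le a b]
  refine (mul_le_mul_of_nonneg_right (t _ _ _ _ _) w0.le).trans ?_
  linarith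

end Vale.Agent.P097Q
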