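import Vale.Agent.P097Q.Key

/-!
# P097Q: the upper and the lower function are small
-/

set_option linter.all false

noncomputable section

namespace Vale.Agent.P097Q

open Set Metric Real

variable {P : Par} {k k' : ℕ} {f f' : ℕ → ℝ} {A A' : ℕ → ℂ × ℂ → ℂ × ℂ}

theorem small_a (H : P.OK) {w : ℝ} (hw : |w| ≤ P.a) : 5 / 4 * (P.Λ * w ^ 2 / P.ρ ^ 2) ≤ 1 / 2 := by
  have ρ0 := H.ρ0
  have h1 : w ^ 2 ≤ 1 := by
    rw [← sq_abs]; nlinarith [abs_nonneg w, H.a8]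
  have h2 : P.Λ * w ^ 2 / P.ρ ^ 2 ≤ 1 / 5 := by
    rw [div_le_iff₀ (by positivity)]
    nlinarith [H.Λ0, H.Λρ, H.ρ1]
  linarith

theorem bdry (H : P.OK) {w W : ℝ} (hw : -P.a ≤ w) (hv : w ≤ P.v)
    (hW : W ≤ 1 ∨ (w = P.v ∧ W ≤ exp P.Λ)) :
    W * exp (5 / 4 * (P.Λ * w ^ 2 / P.ρ ^ 2)) * exp (-(P.c * (P.d / 2 * max w 0))) *
      exp (P.c * P.d / 4 * (w + P.a)) ≤ 3 := by
  have ρ0 := H.ρ0
  have cd : 0 < P.c * P.d := mul_pos H.c0 H.d0
  have cda := H.cd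
  have sd : ∀ w : ℝ, 0 ≤ w → w ≤ P.v → 5 / 4 * (P.Λ * w ^ 2 / P.ρ ^ 2) ≤ P.c * P.d * w / 8 :=
    fun w w0 wv => by
      have : P.Λ * w ^ 2 / P.ρ ^ 2 ≤ P.c * P.d * w / 10 := by
        rw [div_le_iff₀ (by positivity)]
        have h1 : P.Λ * w * w ≤ P.Λ * P.v * w := by have := H.Λ0; gcongr
        have h2 : 10 * P.Λ * P.v * w ≤ P.c * P.d * P.ρ ^ 2 * w := by have := H.side; gcongr
        nlinarith
      linarith
  rw [mul_assoc, mul_assoc, ← exp_add, ← exp_add]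
  refine le_trans ?_ exp1_le
  rcases hW with hW | ⟨e, hW⟩
  · refine (mul_le_of_le_one_left (exp_pos _).le hW).trans (exp_le_exp.2 ?_)
    rcases le_total w 0 with h | h
    · rw [max_eq_right h]
      have := small_a H (w := w) (abs_le.2 ⟨hw, by linarith [H.a0]⟩)
      nlinarith
    · rw [max_eq_left h]
      have := sd w h hv
      nlinarith
  · refine (mul_le_mul_of_nonneg_right hW (exp_pos _).le).trans ?_
    rw [← exp_add]
    apply exp_le_exp.2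
    have v0 : 0 ≤ P.v := by linarith [H.v1]
    have := sd P.v v0 le_rfl
    rw [e, max_eq_left v0]
    nlinarith [H.top]

/-- the holomorphic weight along a line -/
def KK (P : Par) (x g : ℝ) (ζ : ℂ) : ℂ :=
  Complex.exp (P.Λ * (1 - ζ ^ 2 / P.ρ ^ 2 - (x + g * ζ) ^ 2 / P.σ ^ 2))

theorem KK_diff (P : Par) (x g : ℝ) : Differentiable ℂ (KK P x g) := by
  unfold KK; fun_prop

theorem KK_norm (H : P.OK) {g : ℝ} (hg : |g| ≤ P.F) (z ζ : ℂ) :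
    wt P (z + g * ζ, ζ) ≤ ‖KK P z.re g ζ‖ ∧
      ‖KK P z.re g ζ‖ ≤ wt P (z + g * ζ, ζ) * exp (5 / 4 * (P.Λ * ζ.im ^ 2 / P.ρ ^ 2)) := by
  have ρ0 := H.ρ0
  have σ0 := H.σ0
  have e : ‖KK P z.re g ζ‖ = wt P (z + g * ζ, ζ) *
      exp (P.Λ * ζ.im ^ 2 / P.ρ ^ 2 + P.Λ * ζ.im ^ 2 * (g ^ 2 / P.σ ^ 2)) := by
    unfold KK wt
    rw [Complex.norm_exp, ← exp_add]
    congr 1
    simp only [← Complex.ofReal_pow, Complex.re_ofReal_mul, Complex.sub_re, Complex.div_ofReal_re,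
      Complex.one_re]
    simp only [sq, Complex.mul_re, Complex.add_re, Complex.add_im, Complex.mul_im,
      Complex.ofReal_re, Complex.ofReal_im]
    ring
  have l0 : 0 ≤ P.Λ * ζ.im ^ 2 := by have := H.Λ0; positivity
  have g1 : g ^ 2 / P.σ ^ 2 ≤ 1 / 4 / P.ρ ^ 2 := by
    rw [div_le_div_iff₀ (by positivity) (by positivity)]
    have h1 : |g| * P.ρ ≤ P.σ / 2 := by nlinarith [H.ρσ]
    have h2 : (|g| * P.ρ) ^ 2 ≤ (P.σ / 2) ^ 2 := by gcongr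
    rw [mul_pow, sq_abs] at h2
    linarith
  have w0 := wt_pos P (z + g * ζ, ζ)
  rw [e]
  constructor
  · exact le_mul_of_one_le_right w0.le (one_le_exp (by positivity))
  · have : P.Λ * ζ.im ^ 2 * (g ^ 2 / P.σ ^ 2) ≤ P.Λ * ζ.im ^ 2 * (1 / 4 / P.ρ ^ 2) := by gcongr
    have e2 : P.Λ * ζ.im ^ 2 * (1 / 4 / P.ρ ^ 2) = 1 / 4 * (P.Λ * ζ.im ^ 2 / P.ρ ^ 2) := by ring
    gcongr
    linarith

theorem key (hM : S_MM) (hC : S_CMP) (hT : S_TEL) (H : P.OK) (C : Ch P k k' f f' A A') {s : ℝ}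
    (s0 : 0 ≤ s) (hs : Bd P k k' f f' A A' s) {g : ℝ} (c : Cut P k k' f f' g) {p : ℂ × ℂ}
    (x : |p.1.re| ≤ P.σ) (u : |p.2.re| ≤ P.ρ) (lo : P.l₀ + P.lam ≤ tt g p)
    (hi : tt g p ≤ P.h - 2 * P.F * P.v - 2) :
    (-P.a ≤ p.2.im → p.2.im ≤ P.v → ‖UU P k k' f f' A A' g p‖ * wt P p ≤ s / 100 + P.B / 5) ∧
    (-P.v ≤ p.2.im → p.2.im ≤ P.a → ‖LL P k k' f f' A A' g p‖ * wt P p ≤ s / 100 + P.B / 5) := by
  set z : ℂ := p.1 - g * p.2 with hz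
  have a0 := H.a0
  have a8 := H.a8
  have v1 := H.v1
  have cd : 0 < P.c * P.d := mul_pos H.c0 H.d0
  have k0 := H.kap0
  have B0 := H.B0
  have pe : (z + g * p.2, p.2) = p := by rw [hz]; ext <;> simp
  have bx : ∀ ζ : ℂ, |ζ.re| ≤ P.ρ → |ζ.im| ≤ P.v → Bx P g (z + g * ζ, ζ) := fun ζ h1 h2 => by
    have t : tt g (z + g * ζ, ζ) = tt g p := by simp [tt, hz]
    refine ⟨?_, h1, h2, t ▸ lo, t ▸ hi⟩
    have e : (z + g * ζ).re = p.1.re + g * (ζ.re - p.2.re) := by simp [hz]; ring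
    show |(z + g * ζ).re| ≤ _
    rw [e]
    have : |g * (ζ.re - p.2.re)| ≤ P.F * (2 * P.ρ) := by
      rw [abs_mul]
      exact mul_le_mul c.gF ((abs_sub _ _).trans (by linarith)) (abs_nonneg _) (by linarith [H.F1])
    linarith [abs_add_le p.1.re (g * (ζ.re - p.2.re)), H.ρσ]
  have γd : ∀ (T : ℂ × ℂ → ℂ × ℂ) (ζ : ℂ), DifferentiableAt ℂ T (z + g * ζ, ζ) →
      DifferentiableAt ℂ (fun ζ : ℂ => T (z + g * ζ, ζ)) ζ := fun T ζ h =>
    DifferentiableAt.comp (g := T) (f := fun ζ : ℂ => (z + g * ζ, ζ)) ζ h (by fun_prop)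
  have bd : ∀ (ζ : ℂ) (w N : ℝ), w ^ 2 = ζ.im ^ 2 → -P.a ≤ w → w ≤ P.v → |ζ.re| = P.ρ ∨ w = P.v →
      0 ≤ N → N ≤ 2 * P.n * (kap P * exp (-(P.c * (P.d / 2 * max w 0)))) →
      ‖KK P z.re g ζ‖ * N * exp (P.c * P.d / 4 * (w + P.a)) ≤ 6 * P.n * kap P :=
    fun ζ w N e h1 h2 h3 N0 hN => by
      have b1 := (KK_norm H c.gF z ζ).2
      have b2 := bdry H (W := wt P (z + g * ζ, ζ)) h1 h2
        (h3.imp (fun h => wt_le_one H _ (Or.inl h.ge)) fun h => ⟨h, wt_le H _⟩)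
      rw [← e] at b1
      have w0 := wt_pos P (z + g * ζ, ζ)
      calc _ ≤ wt P (z + g * ζ, ζ) * exp (5 / 4 * (P.Λ * w ^ 2 / P.ρ ^ 2)) *
            (2 * P.n * (kap P * exp (-(P.c * (P.d / 2 * max w 0))))) *
            exp (P.c * P.d / 4 * (w + P.a)) := by gcongr
        _ = 2 * P.n * kap P * (wt P (z + g * ζ, ζ) * exp (5 / 4 * (P.Λ * w ^ 2 / P.ρ ^ 2)) *
            exp (-(P.c * (P.d / 2 * max w 0))) * exp (P.c * P.d / 4 * (w + P.a))) := by ring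
        _ ≤ 2 * P.n * kap P * 3 := by gcongr
        _ = _ := by ring
  obtain ⟨m1, m2⟩ := hM (fun ζ => KK P z.re g ζ • UU P k k' f f' A A' g (z + g * ζ, ζ))
    (fun ζ => -(KK P z.re g ζ • LL P k k' f f' A A' g (z + g * ζ, ζ))) P.ρ P.v P.a
    (P.c * P.d / 4) (6 * P.n * kap P) (3 * (P.c * P.d * P.a * (s / 4000 + P.B / 100))) H.ρ0 a0
    (by linarith) (by positivity) (by linarith [H.cd]) (by positivity) (by positivity)
    (fun ζ h1 h2 => (KK_diff P _ _ ζ).smul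
      (γd _ ζ (uu_gd hC H C c (bx ζ h1 (abs_le.2 ⟨by linarith [h2.1], h2.2⟩)) h2.1).1))
    (fun ζ h1 h2 => ((KK_diff P _ _ ζ).smul
      (γd _ ζ (ll_gd hC H C c (bx ζ h1 (abs_le.2 ⟨h2.1, by linarith [h2.2]⟩)) h2.2).1)).neg)
    (fun ζ h1 h2 h3 => by
      rw [norm_smul]
      exact bd ζ ζ.im _ rfl h2.1 h2.2 h3 (norm_nonneg _)
        (uu_gd hC H C c (bx ζ h1 (abs_le.2 ⟨by linarith [h2.1], h2.2⟩)) h2.1).2)
    (fun ζ h1 h2 h3 => by
      rw [norm_neg, norm_smul, show P.a - ζ.im = -ζ.im + P.a by ring]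
      exact bd ζ (-ζ.im) _ (by ring) (by linarith [h2.2]) (by linarith [h2.1])
        (h3.imp id fun h => by linarith) (norm_nonneg _)
        (ll_gd hC H C c (bx ζ h1 (abs_le.2 ⟨h2.1, by linarith [h2.2]⟩)) h2.2).2)
    (fun ζ h1 h2 => by
      rw [← sub_eq_add_neg, ← smul_sub, norm_smul]
      have b := bx ζ h1 (by linarith)
      have b1 := ul hT H C s0 hs c (p := (z + g * ζ, ζ)) ⟨b.x, b.u, h2.le, b.lo, b.hi⟩
      have b2 := (KK_norm H c.gF z ζ).2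
      have b3 : exp (5 / 4 * (P.Λ * ζ.im ^ 2 / P.ρ ^ 2)) ≤ 3 :=
        (exp_le_exp.2 (by linarith [small_a H h2.le])).trans exp1_le
      have w0 := wt_pos P (z + g * ζ, ζ)
      have b4 : ‖KK P z.re g ζ‖ ≤ wt P (z + g * ζ, ζ) * 3 := b2.trans (by gcongr)
      refine (mul_le_mul_of_nonneg_right b4 (norm_nonneg _)).trans ?_
      linarith)
  have fin : ∀ N : ℝ, 0 ≤ N → ‖KK P z.re g p.2‖ * N * (P.c * P.d / 4 * P.a) ≤
      3 * (P.c * P.d * P.a * (s / 4000 + P.B / 100)) + 6 * P.n * kap P →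
      N * wt P p ≤ s / 100 + P.B / 5 := fun N N0 h => by
    have b1 := (KK_norm H c.gF z p.2).1
    rw [pe] at b1
    have cda : 0 < P.c * P.d * P.a := by positivity
    have b2 : wt P p * N * (P.c * P.d / 4 * P.a) ≤ ‖KK P z.re g p.2‖ * N * (P.c * P.d / 4 * P.a) := by
      gcongr
    have n1 : (1 : ℝ) ≤ P.n := by exact_mod_cast H.n1
    have b3 : P.n * kap P ≤ P.n ^ 2 * kap P := by gcongr; nlinarith
    have b4 : 10 ^ 5 * P.n ^ 2 * kap P ≤ P.c * P.d * P.a * P.B := by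
      refine H.sm2.trans ?_
      have : P.c * P.d * P.a * P.a ≤ P.c * P.d * P.a * P.B := by gcongr; linarith [H.B1]
      linarith
    refine le_of_mul_le_mul_left ?_ cda
    have b5 : 0 ≤ P.c * P.d * P.a * s := by positivity
    have b6 : 0 ≤ P.c * P.d * P.a * P.B := by positivity
    nlinarith
  constructor
  · intro h1 h2
    have := m1 p.2 u ⟨h1, h2⟩
    simp only [pe, norm_smul] at this
    exact fin _ (norm_nonneg _) this
  · intro h1 h2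
    have := m2 p.2 u ⟨h1, h2⟩
    simp only [pe, norm_neg, norm_smul] at this
    exact fin _ (norm_nonneg _) this

end Vale.Agent.P097Q
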