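import Vale.Agent.P097Q.SDefs
import Vale.Agent.P097Q.Main

/-!
# P097Q: kicks from charts and passages
-/

set_option linter.all false

noncomputable section

namespace Vale.Agent.P097Q

open Set Metric Real

variable {P : Par} {M : Mac} {C D C' D' Z Z' S : ℂ × ℂ → ℂ × ℂ}

theorem fv {f F x v : ℝ} (hf : |f| ≤ F) (hx : |x| ≤ v) : -(F * v) ≤ f * x ∧ f * x ≤ F * v := by
  rw [← abs_le, abs_mul]
  exact mul_le_mul hf hx (abs_nonneg _) ((abs_nonneg _).trans hf)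

theorem edge2 (hE : S_EDGE) (H : P.OK) (N : M.OK P) {U : ℂ × ℂ → ℂ × ℂ} {f t B : ℝ}
    (hf : |f| ≤ P.F) (t0 : 0 ≤ t) (tl : t ≤ P.l₀) (B0 : 0 ≤ B) {ζ : ℂ} (hζ : |ζ.im| ≤ P.v + 1)
    (h1 : ∀ z : ℂ, |z.re| ≤ M.w → t ≤ tt f (z, ζ) → -z.im ≤ M.H →
      DifferentiableAt ℂ U (z, ζ) ∧ ‖U (z, ζ)‖ ≤ B)
    (h2 : ∀ z : ℂ, |z.re| ≤ M.w → -z.im = M.H → ‖U (z, ζ)‖ ≤
      B * exp (-(P.c * M.w * sinh (π * (M.H + P.F * (P.v + 1)) / (2 * M.w)))))
    (z : ℂ) (hx : |z.re| ≤ M.w / 2) (ht : t ≤ tt f (z, ζ)) (hH : -z.im ≤ M.H) :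
    ‖U (z, ζ)‖ ≤ B * exp (-(P.c * (tt f (z, ζ) - t))) := by
  have b := fv hf hζ
  have := hE (fun z => U (z, ζ)) M.w (f * ζ.im - t) (f * ζ.im - t + M.H) (M.H + P.F * (P.v + 1)) B
    P.c (by linarith [N.wσ, H.σ0]) (by linarith [N.hH, H.hl, H.lam2, H.Fv]) (by linarith) H.c0.le B0
    (fun z a1 a2 => by
      obtain ⟨d1, d2⟩ := h1 z a1 (by simp only [tt]; linarith [a2.2]) (by linarith [a2.1])
      exact ⟨DifferentiableAt.comp (g := U) (f := fun z : ℂ => (z, ζ)) z d1 (by fun_prop), d2⟩)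
    (fun z a1 a2 => h2 z a1 (by linarith)) z hx
    ⟨by linarith, by simp only [tt] at ht; linarith⟩
  refine this.trans (le_of_eq ?_)
  simp only [tt]
  ring_nf

theorem Mac.OK.e1 (H : P.OK) (N : M.OK P) :
    exp (-(P.c * M.w * sinh (π * (M.H + P.F * (P.v + 1)) / (2 * M.w)))) ≤ 1 := by
  have w0 : 0 < M.w := by linarith [N.wσ, H.σ0]
  have H0 : 0 ≤ M.H + P.F * (P.v + 1) := by
    nlinarith [N.hH, H.hl, H.lam2, H.Fv, N.ls0, N.lsl, H.F1]
  have : 0 ≤ sinh (π * (M.H + P.F * (P.v + 1)) / (2 * M.w)) := sinh_nonneg_iff.2 (by positivity)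
  have := H.c0
  rw [exp_le_one_iff, neg_nonpos]
  positivity

theorem Mac.OK.δ0 (N : M.OK P) : 0 < M.δ := lt_trans (by have := N.B1; positivity) N.tube

theorem mem_MB (H : P.OK) {f : ℝ} (hf : |f| ≤ P.F) {p : ℂ × ℂ} (h1 : |p.1.re| ≤ M.w + 1)
    (h2 : |p.2.re| ≤ P.ρ + 2) (h3 : |p.2.im| ≤ P.v + 2) (h4 : 0 ≤ tt f p) (h5 : -p.1.im ≤ M.H + 1) :
    p ∈ MB M P :=
  ⟨h1, by simp only [tt] at h4; linarith [(fv hf h3).2], h5, h2, h3⟩

/-- the true state in a chart -/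
theorem phi (hE : S_EDGE) (H : P.OK) (N : M.OK P) {f lo hi : ℝ} (hf : |f| ≤ P.F)
    (hlo : -(P.v + 1) ≤ lo) (hhi : hi ≤ P.v + 1) (c : Cht M P C D) (T : Tru M P f lo hi Z C)
    (dp : ∀ p ∈ Bot M P, ‖Z p - C p‖ ≤ M.e) {p : ℂ × ℂ} (x : |p.1.re| ≤ M.w / 2)
    (u : |p.2.re| < P.ρ + 1) (v1 : lo < p.2.im) (v2 : p.2.im < hi) (t : P.l₀ ≤ tt f p)
    (b : -p.1.im ≤ M.H) : DifferentiableAt ℂ Z p ∧ DifferentiableAt ℂ (fun p => D (Z p)) p ∧
      C (D (Z p)) = Z p ∧ ‖D (Z p) - p‖ ≤ P.B * exp (-(P.c * (tt f p - P.l₀))) := by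
  have w0 : 0 < M.w := by linarith [N.wσ, H.σ0]
  have ls0 := N.ls0
  have lsl := N.lsl
  have hv : |p.2.im| < P.v + 1 := abs_lt.2 ⟨by linarith, by linarith⟩
  have B1 := N.B1
  have K1 := N.K1
  have e := edge2 hE H N (U := fun p => Z p - C p) (t := P.l₀ - M.ls) (B := M.B₀) hf (by linarith)
    (by linarith) (by linarith) hv.le
    (fun z a1 a2 a3 => by
      obtain ⟨d1, d2⟩ := T (z, p.2) a1 u v1 v2 a2 a3
      exact ⟨d1.sub (c _ (mem_MB H hf (by simp only; linarith) (by simp only; linarith)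
        (by simp only; linarith) (by linarith) (by simp only; linarith))).1, d2⟩)
    (fun z a1 a2 => by
      have h1 := dp (z, p.2) ⟨a1, u, hv, by simp only; linarith, a2.le⟩
      have h2 := N.tiny
      have e0 : 0 ≤ M.e := (norm_nonneg _).trans h1
      have h3 := exp_pos (-(P.c * M.w * sinh (π * (M.H + P.F * (P.v + 1)) / (2 * M.w))))
      nlinarith)
    p.1 x (by show P.l₀ - M.ls ≤ tt f p; linarith) b
  have e2 : ‖Z p - C p‖ ≤ M.B₀ * exp (-(P.c * M.ls)) * exp (-(P.c * (tt f p - P.l₀))) := by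
    rw [mul_assoc, ← exp_add]
    refine e.trans (le_of_eq ?_)
    show _ * exp (-(P.c * (tt f p - _))) = _
    ring_nf
  have x0 := exp_pos (-(P.c * (tt f p - P.l₀)))
  have e3 : ‖Z p - C p‖ < M.δ := e2.trans_lt ((mul_le_of_le_one_right (by positivity)
    (exp_le1 H.c0 (by linarith))).trans_lt N.tube)
  obtain ⟨d1, d2, d3⟩ := (c p (mem_MB H hf (by linarith) (by linarith) (by linarith) (by linarith)
    (by linarith))).2 (Z p) (by rwa [mem_ball, dist_eq_norm])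
  have dZ := (T p (by linarith) u v1 v2 (by linarith) b).1
  refine ⟨dZ, DifferentiableAt.comp (g := D) (f := Z) p d1 dZ, d2, d3.trans ?_⟩
  calc M.K * ‖Z p - C p‖ ≤ M.K * (M.δ * exp (-(P.c * (tt f p - P.l₀)))) := by
        have := N.tube.le
        exact mul_le_mul_of_nonneg_left (e2.trans (by gcongr)) (by linarith)
    _ ≤ _ := by rw [← mul_assoc]; have := N.KB; gcongr

theorem Dom.H (H : P.OK) (N : M.OK P) {f lo hi : ℝ} (hf : |f| ≤ P.F) (hlo : -(P.v + 1) ≤ lo)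
    (hhi : hi ≤ P.v + 1) {p : ℂ × ℂ} (h : p ∈ Dom P f lo hi) :
    |p.2.im| < P.v + 1 ∧ -p.1.im ≤ M.H ∧ |p.1.re| ≤ M.w / 2 := by
  obtain ⟨h1, h2, h3, h4, h5, h6⟩ := h
  have hv : |p.2.im| < P.v + 1 := abs_lt.2 ⟨by linarith, by linarith⟩
  simp only [tt] at h6
  exact ⟨hv, by linarith [(fv hf hv.le).1, N.hH], by linarith [N.wσ]⟩

theorem phi_kick (hE : S_EDGE) (H : P.OK) (N : M.OK P) {f lo hi : ℝ} (hf : |f| ≤ P.F)
    (hlo : -(P.v + 1) ≤ lo) (hhi : hi ≤ P.v + 1) (c : Cht M P C D) (T : Tru M P f lo hi Z C)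
    (dp : ∀ p ∈ Bot M P, ‖Z p - C p‖ ≤ M.e) : Kick P f lo hi fun p => D (Z p) - p := by
  have k := fun p (h : p ∈ Dom P f lo hi) => phi hE H N hf hlo hhi c T dp
    (Dom.H H N hf hlo hhi h).2.2 h.2.1 h.2.2.1 h.2.2.2.1 h.2.2.2.2.1.le (Dom.H H N hf hlo hhi h).2.1
  exact ⟨fun p h => ((k p h).2.1.sub differentiableAt_id).differentiableWithinAt,
    fun p h => (k p h).2.2.2⟩

theorem psi0 (N : M.OK P) {f : ℝ} (c : Cht M P C D) (c' : Cht M P C' D') (s : Pas M P f C C' S)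
    {p : ℂ × ℂ} (hp : p ∈ MB M P) (t : P.l₀ ≤ tt f p) :
    DifferentiableAt ℂ (fun p => D' (S (C p)) - p) p ∧ ‖D' (S (C p)) - p‖ ≤ P.B := by
  obtain ⟨s1, s2⟩ := s p hp t
  obtain ⟨d1, -, d3⟩ := (c' p hp).2 (S (C p)) (by rwa [mem_ball, dist_eq_norm])
  refine ⟨(DifferentiableAt.comp (g := D') (f := fun p => S (C p)) p d1
    (DifferentiableAt.comp (g := S) (f := C) p s1 (c p hp).1)).sub differentiableAt_id,
    d3.trans (le_trans ?_ N.KB)⟩
  exact mul_le_mul_of_nonneg_left s2.le (by linarith [N.K1])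

theorem psi_kick (hE : S_EDGE) (H : P.OK) (N : M.OK P) {f lo hi : ℝ} (hf : |f| ≤ P.F)
    (hlo : -(P.v + 1) ≤ lo) (hhi : hi ≤ P.v + 1) (c : Cht M P C D) (c' : Cht M P C' D')
    (s : Pas M P f C C' S) (dp : ∀ p ∈ Bot M P, ‖Z p - C p‖ ≤ M.e)
    (dp' : ∀ p ∈ Bot M P, ‖Z' p - C' p‖ ≤ M.e) (ob : ∀ p ∈ Bot M P, S (Z p) = Z' p) :
    Kick P f lo hi fun p => D' (S (C p)) - p := by
  have l0 : 0 ≤ P.l₀ := N.ls0.trans N.lsl
  have w0 : 0 < M.w := by linarith [N.wσ, H.σ0]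
  have B1 := H.B1
  have K1 := N.K1
  refine ⟨fun p h => ?_, fun p h => ?_⟩
  · obtain ⟨a1, a2, a3⟩ := Dom.H H N hf hlo hhi h
    exact (psi0 N c c' s (mem_MB H hf (by linarith) (by linarith [h.2.1]) (by linarith)
      (by linarith [h.2.2.2.2.1]) (by linarith)) h.2.2.2.2.1.le).1.differentiableWithinAt
  obtain ⟨a1, a2, a3⟩ := Dom.H H N hf hlo hhi h
  have u := h.2.1
  refine edge2 hE H N (U := fun p => D' (S (C p)) - p) hf l0 le_rfl (by linarith) a1.le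
    (fun z b1 b2 b3 => psi0 N c c' s (mem_MB H hf (by simp only; linarith) (by simp only; linarith)
      (by simp only; linarith) (by linarith) (by simp only; linarith)) b2)
    (fun z b1 b2 => ?_) p.1 a3 h.2.2.2.2.1.le a2
  set x : ℂ × ℂ := (z, p.2) with hx
  have bt : x ∈ Bot M P := ⟨b1, u, a1, by simp only [hx]; linarith, b2.le⟩
  have nb : ∀ y ∈ ball x 1, y ∈ MB M P ∧ P.l₀ ≤ tt f y := fun y hy => by
    obtain ⟨n1, n2, n3, n4⟩ := near hy
    have c1 := abs_sub_abs_le_abs_sub y.1.re x.1.re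
    have c2 := abs_sub_abs_le_abs_sub y.2.re x.2.re
    have c3 := abs_sub_abs_le_abs_sub y.2.im x.2.im
    simp only [hx] at n1 n2 n3 n4 c1 c2 c3
    rw [abs_lt] at n2
    have c4 : |y.2.im| ≤ P.v + 2 := by linarith
    have t : P.l₀ ≤ tt f y := by
      simp only [tt]
      nlinarith [(fv hf c4).1, N.hH, H.hl, H.lam2, H.F1, H.v1]
    exact ⟨mem_MB H hf (by linarith) (by linarith) c4 (by linarith) (by linarith), t⟩
  have xm := (nb x (mem_ball_self one_pos)).1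
  have e1 := dp x bt
  have e2 := dp' x bt
  have e0 : 0 ≤ M.e := (norm_nonneg _).trans e1
  obtain ⟨-, d2, d3⟩ := (c x xm).2 (Z x) (by rw [mem_ball, dist_eq_norm]; linarith [N.eδ])
  obtain ⟨-, -, d5⟩ := (c' x xm).2 (Z' x) (by rw [mem_ball, dist_eq_norm]; linarith [N.eδ])
  have d4 : ‖D (Z x) - x‖ ≤ M.K * M.e := d3.trans (by gcongr)
  have d6 : ‖D' (Z' x) - x‖ ≤ M.K * M.e := d5.trans (by gcongr)
  have ty := N.tiny
  have e3 := Mac.OK.e1 H N
  have sw := Complex.dist_le_div_mul_dist_of_mapsTo_ball (f := fun p => D' (S (C p)) - p) (c := x)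
    (R₁ := 1) (R₂ := 2 * P.B) (z := D (Z x))
    (fun y hy => (psi0 N c c' s (nb y hy).1 (nb y hy).2).1.differentiableWithinAt)
    (fun y hy => by
      rw [mem_closedBall, dist_eq_norm]
      linarith [norm_sub_le (D' (S (C y)) - y) (D' (S (C x)) - x),
        (psi0 N c c' s (nb y hy).1 (nb y hy).2).2,
        (psi0 N c c' s xm (nb x (mem_ball_self one_pos)).2).2])
    (by rw [mem_ball, dist_eq_norm]; linarith)
  simp only [dist_eq_norm, d2, ob x bt, div_one] at sw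
  have id : D' (S (C x)) - x = (D' (Z' x) - x) - (D (Z x) - x) -
      (D' (Z' x) - D (Z x) - (D' (S (C x)) - x)) := by abel
  have Ke : 0 ≤ M.K * M.e := by positivity
  have s1 : 2 * P.B * ‖D (Z x) - x‖ ≤ 2 * P.B * (M.K * M.e) := by gcongr
  have s2 : M.K * M.e ≤ P.B * (M.K * M.e) := le_mul_of_one_le_left Ke B1
  have s3 := mul_le_mul_of_nonneg_left ty (by linarith : 0 ≤ P.B)
  show ‖D' (S (C x)) - x‖ ≤ _
  rw [id]
  refine (norm_sub_le _ _).trans ?_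
  have := norm_sub_le (D' (Z' x) - x) (D (Z x) - x)
  nlinarith

/-- the thin region down to the deep band -/
def Lk (M : Mac) (P : Par) : Set (ℂ × ℂ) :=
  {p | |p.1.re| < 2 * P.σ + 1 ∧ |p.2.re| ≤ P.ρ ∧ |p.2.im| ≤ P.a ∧
    P.l₀ + P.lam - 1 / 2 < -p.1.im ∧ -p.1.im < M.H}

theorem tt0 (p : ℂ × ℂ) : tt 0 p = -p.1.im := by simp [tt]

theorem phi0 (hE : S_EDGE) (H : P.OK) (N : M.OK P) (c : Cht M P C D)
    (T : Tru M P 0 (-(2 * P.a)) (2 * P.a) Z C) (dp : ∀ p ∈ Bot M P, ‖Z p - C p‖ ≤ M.e) {p : ℂ × ℂ}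
    (x : |p.1.re| ≤ 2 * P.σ + 1) (u : |p.2.re| ≤ P.ρ) (v : |p.2.im| ≤ P.a) (t : P.l₀ ≤ -p.1.im)
    (b : -p.1.im ≤ M.H) : DifferentiableAt ℂ Z p ∧ C (D (Z p)) = Z p ∧
      ‖D (Z p) - p‖ ≤ P.B * exp (-(P.c * (-p.1.im - P.l₀))) := by
  have a0 := H.a0
  have hv := abs_le.1 v
  have := phi hE H N (f := 0) (by simp; linarith [H.F1]) (by linarith [H.a8, H.v1])
    (by linarith [H.a8, H.v1]) c T dp (p := p) (by linarith [N.wσ]) (by linarith) (by linarith)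
    (by linarith) (by rwa [tt0]) b
  rw [tt0] at this
  exact ⟨this.1, this.2.2⟩

/-- the true states are linked by the passage on the whole thin region -/
theorem link (hE : S_EDGE) (H : P.OK) (N : M.OK P) {f : ℝ} (hf : |f| ≤ P.F) (c : Cht M P C D)
    (s : Pas M P f C C' S) (T : Tru M P 0 (-(2 * P.a)) (2 * P.a) Z C)
    (T' : Tru M P 0 (-(2 * P.a)) (2 * P.a) Z' C') (dp : ∀ p ∈ Bot M P, ‖Z p - C p‖ ≤ M.e)
    (ob : ∀ p ∈ Bot M P, S (Z p) = Z' p) {p : ℂ × ℂ} (h : p ∈ Lk M P) :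
    S (C (D (Z p))) = Z' p := by
  obtain ⟨h1, h2, h3, h4, h5⟩ := h
  have a0 := H.a0
  have a8 := H.a8
  have lam2 := H.lam2
  have l0 : 0 ≤ P.l₀ := N.ls0.trans N.lsl
  have wσ := N.wσ
  have σ0 := H.σ0
  have hv := abs_le.1 h3
  set R : Set ℂ := Ioo (-(2 * P.σ + 1)) (2 * P.σ + 1) ×ℂ Ioo (-M.H) (-(P.l₀ + P.lam - 1 / 2))
  have Ro : IsOpen R := isOpen_Ioo.reProdIm isOpen_Ioo
  have Rc : IsPreconnected R := (((convex_Ioo _ _).linear_preimage Complex.reLm).inter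
    ((convex_Ioo _ _).linear_preimage Complex.imLm)).isPreconnected
  have emb : ∀ (U : ℂ × ℂ → ℂ × ℂ) (z : ℂ), DifferentiableAt ℂ U (z, p.2) →
      DifferentiableAt ℂ (fun z => U (z, p.2)) z := fun U z d =>
    DifferentiableAt.comp (g := U) (f := fun z : ℂ => (z, p.2)) z d (by fun_prop)
  have d1 : DifferentiableOn ℂ (fun z => S (Z (z, p.2))) R := fun z hz => by
    obtain ⟨z1, z2⟩ := Complex.mem_reProdIm.1 hz
    have z3 := abs_lt.2 z1
    obtain ⟨k1, k2, k3⟩ := phi0 hE H N c T dp (p := (z, p.2)) z3.le h2 h3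
      (by simp only; linarith [z2.2]) (by simp only; linarith [z2.1])
    have k4 : ‖D (Z (z, p.2)) - (z, p.2)‖ < P.a := by
      have n1 : (1 : ℝ) ≤ P.n := by exact_mod_cast H.n1
      have k0 := H.kap0
      have m1 : P.B * exp (-(P.c * (-z.im - P.l₀))) ≤ kap P := by
        refine mul_le_mul_of_nonneg_left (exp_le_exp.2 ?_) H.B0.le
        exact neg_le_neg (mul_le_mul_of_nonneg_left (by linarith [z2.2]) H.c0.le)
      have m2 : kap P ≤ P.n * kap P := le_mul_of_one_le_left k0 n1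
      have m3 := H.sm1
      unfold kap at m1 m2
      linarith
    have hb : D (Z (z, p.2)) ∈ ball (z, p.2) P.a := by rwa [mem_ball, dist_eq_norm]
    obtain ⟨n1, n2, n3, n4⟩ := near hb
    have t1 := abs_le.1 (tt_near hb hf)
    have t2 := (fv hf h3).1
    have c1 := abs_sub_abs_le_abs_sub (D (Z (z, p.2))).1.re z.re
    have c2 := abs_sub_abs_le_abs_sub (D (Z (z, p.2))).2.re p.2.re
    have c3 := abs_sub_abs_le_abs_sub (D (Z (z, p.2))).2.im p.2.im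
    simp only at n1 n2 n3 n4
    rw [abs_lt] at n2
    have t3 : tt f (z, p.2) = f * p.2.im - z.im := rfl
    have t : P.l₀ ≤ tt f (D (Z (z, p.2))) := by nlinarith [H.Fa, z2.2]
    have := (s _ (mem_MB H hf (by linarith) (by linarith) (by linarith [H.v1]) (by linarith)
      (by linarith [z2.1])) t).1
    rw [k2] at this
    exact (emb (fun p => S (Z p)) z
      (DifferentiableAt.comp (g := S) (f := Z) _ this k1)).differentiableWithinAt
  have d2 : DifferentiableOn ℂ (fun z => Z' (z, p.2)) R := fun z hz => by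
    obtain ⟨z1, z2⟩ := Complex.mem_reProdIm.1 hz
    have z3 := abs_lt.2 z1
    exact (emb Z' z (T' (z, p.2) (by simp only; linarith) (by simp only; linarith)
      (by simp only; linarith) (by simp only; linarith)
      (by rw [tt0]; simp only; linarith [z2.2, N.ls0])
      (by simp only; linarith [z2.1])).1).differentiableWithinAt
  have hH : P.l₀ + P.lam + 1 ≤ M.H := by nlinarith [N.hH, H.hl, H.Fv, H.F1]
  have eq := (d1.analyticOnNhd Ro).eqOn_of_preconnected_of_eventuallyEq (d2.analyticOnNhd Ro) Rc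
    (z₀ := ⟨0, -(M.H - 1 / 2)⟩)
    (Complex.mem_reProdIm.2 ⟨⟨by simp only; linarith, by simp only; linarith⟩,
      ⟨by simp only; linarith, by simp only; linarith⟩⟩)
    (by
      have o : IsOpen (Ioo (-1 : ℝ) 1 ×ℂ Ioo (-M.H) (-(M.H - 1))) := isOpen_Ioo.reProdIm isOpen_Ioo
      filter_upwards [o.mem_nhds (x := ⟨0, -(M.H - 1 / 2)⟩) (Complex.mem_reProdIm.2
        ⟨⟨by simp, by simp⟩, ⟨by simp only; linarith, by simp only; linarith⟩⟩)] with z hz
      obtain ⟨z1, z2⟩ := Complex.mem_reProdIm.1 hz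
      exact ob (z, p.2) ⟨by simp only; linarith [abs_lt.2 z1], by simp only; linarith,
        by simp only; linarith [H.v1], by simp only; linarith [z2.2],
        by simp only; linarith [z2.1]⟩)
  rw [(phi0 hE H N c T dp h1.le h2 h3 (by linarith) h5.le).2.1]
  exact eq (Complex.mem_reProdIm.2 ⟨abs_lt.1 h1, by linarith, by linarith⟩)

end Vale.Agent.P097Q
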